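import Vale.Agent.P249.Sub.Ell

/-!
A finite set in a `p`-norm space is reproduced by a block-averaging map of controlled rank.
-/

namespace Vale.Agent.P249.Sub

open Finset

/-- Auerbach bases with norm-one extensions of the coordinate functionals. -/
lemma exists_auerbach {E : Type*} [NormedAddCommGroup E] [NormedSpace ℝ E] (S : Submodule ℝ E)
    [FiniteDimensional ℝ S] :
    ∃ (b : Fin (Module.finrank ℝ S) → E) (l : Fin (Module.finrank ℝ S) → StrongDual ℝ E),
      (∀ j, ‖b j‖ ≤ 1 ∧ b j ∈ S ∧ ∀ x, |l j x| ≤ ‖x‖) ∧ ∀ x ∈ S, ∑ j, l j x • b j = x := by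
  classical
  set r := Module.finrank ℝ S
  set e : Module.Basis (Fin r) ℝ S := Module.finBasis ℝ S
  let K : Set (Fin r → S) := {v | ∀ j, ‖v j‖ ≤ 1}
  have hK : IsCompact K := by
    have : K = Set.univ.pi fun _ => Metric.closedBall (0 : S) 1 := by
      ext v; simp [K, Set.mem_pi]
    rw [this]
    exact isCompact_univ_pi fun _ => isCompact_closedBall _ _
  have hcont : Continuous fun v : Fin r → S => |e.det v| := by
    simp only [Module.Basis.det_apply]
    refine (Continuous.matrix_det (continuous_matrix fun i j => ?_)).abs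
    simp only [Module.Basis.toMatrix_apply]
    exact ((e.coord i).continuous_of_finiteDimensional).comp (continuous_apply j)
  obtain ⟨v, hvK, hvmax⟩ := hK.exists_isMaxOn ⟨0, fun j => by simp⟩ hcont.continuousOn
  have hdet : e.det v ≠ 0 := by
    intro h0
    let w : Fin r → S := fun j => (‖e j‖⁻¹) • e j
    have hw : w ∈ K := fun j => by
      have : ‖e j‖ ≠ 0 := by simpa using e.ne_zero j
      simp only [w, norm_smul, norm_inv, norm_norm]
      rw [inv_mul_cancel₀ this]
    have h1 : |e.det w| ≤ 0 := by simpa [h0] using hvmax hw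
    have h2 : e.det w = (∏ j, ‖e j‖⁻¹) * e.det e := e.det.toMultilinearMap.map_smul_univ _ _
    rw [Module.Basis.det_self, mul_one] at h2
    have h3 : (∏ j, ‖e j‖⁻¹) = 0 := by rw [← h2]; exact abs_nonpos_iff.1 h1
    rw [Finset.prod_eq_zero_iff] at h3
    obtain ⟨j, -, hj⟩ := h3
    exact e.ne_zero j (by simpa using hj)
  obtain ⟨hli, hspan⟩ := (Module.Basis.is_basis_iff_det e).2 (isUnit_iff_ne_zero.2 hdet)
  let fn : Fin r → (S →ₗ[ℝ] ℝ) := fun j =>
    (e.det v)⁻¹ • e.det.toMultilinearMap.toLinearMap v j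
  have hfn : ∀ j x, fn j x = (e.det v)⁻¹ * e.det (Function.update v j x) := fun j x => rfl
  have hbound : ∀ j (x : S), |fn j x| ≤ 1 * ‖x‖ := by
    intro j x
    rcases eq_or_ne x 0 with rfl | hx
    · simp
    have hx' : 0 < ‖x‖ := norm_pos_iff.2 hx
    have hmem : Function.update v j (‖x‖⁻¹ • x) ∈ K := by
      intro i
      rcases eq_or_ne i j with rfl | hij
      · rw [Function.update_self, norm_smul, norm_inv, norm_norm, inv_mul_cancel₀ hx'.ne']
      · rw [Function.update_of_ne hij]; exact hvK i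
    have h := hvmax hmem
    simp only [Set.mem_ofPred_eq] at h
    rw [AlternatingMap.map_update_smul, smul_eq_mul, abs_mul,
      abs_of_pos (inv_pos.2 hx'), inv_mul_le_iff₀ hx'] at h
    rw [hfn, abs_mul, abs_inv, inv_mul_le_iff₀ (abs_pos.2 hdet)]
    linarith
  have hex : ∀ j, ∃ g : StrongDual ℝ E, (∀ x : S, g x = fn j x) ∧
      ‖g‖ = ‖(fn j).mkContinuous 1 (hbound j)‖ :=
    fun j => exists_extension_norm_eq S ((fn j).mkContinuous 1 (hbound j))
  choose l hl hlnorm using hex
  refine ⟨fun j => (v j : E), l, fun j => ⟨hvK j, (v j).2, fun x => ?_⟩, fun x hx => ?_⟩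
  · have h1 : ‖l j‖ ≤ 1 := by
      rw [hlnorm]; exact LinearMap.mkContinuous_norm_le _ zero_le_one _
    calc |l j x| = ‖l j x‖ := (Real.norm_eq_abs _).symm
      _ ≤ ‖l j‖ * ‖x‖ := (l j).le_opNorm x
      _ ≤ 1 * ‖x‖ := by gcongr
      _ = ‖x‖ := one_mul _
  · have hsurj : (⟨x, hx⟩ : S) ∈ Submodule.span ℝ (Set.range v) := by rw [hspan]; trivial
    rw [Submodule.mem_span_range_iff_exists_fun] at hsurj
    obtain ⟨c, hc⟩ := hsurj
    have key : ∀ j, l j x = c j := by
      intro j
      rw [show l j x = fn j ⟨x, hx⟩ from hl j ⟨x, hx⟩, ← hc, map_sum, Finset.sum_eq_single j]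
      · rw [map_smul, hfn, Function.update_eq_self, inv_mul_cancel₀ hdet, smul_eq_mul, mul_one]
      · intro i _ hij
        rw [map_smul, hfn, smul_eq_mul]
        rw [e.det.map_eq_zero_of_eq (Function.update v j (v i))
          (by rw [Function.update_self, Function.update_of_ne hij]) (Ne.symm hij),
          mul_zero, mul_zero]
      · simp
    simp only [key]
    have := congrArg (fun y : S => (y : E)) hc
    simpa using this

variable {p : ℝ} [hp : Fact (1 ≤ ENNReal.ofReal p)] {I : Type*} [Fintype I]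

/-- Rank bound of the block-averaging map. -/
def projRank (N : ℕ) : ℕ := (8 * (N + 1) ^ 2 + 1) ^ N

/-- A linear contraction `P` of rank `projRank N` and a linear residual `u` vanishing on the
differences of the given `N + 1` points, together bounding the norm from below. -/
theorem exists_projection (A : Finset (Ell p I)) {z : Ell p I} (hz : z ∈ A) {N : ℕ}
    (hA : A.card ≤ N + 1) :
    ∃ (P : Ell p I →ₗ[ℝ] Ell p (Fin (projRank N))) (u : Ell p I →ₗ[ℝ] Ell p I),
      (∀ x, ‖P x‖ ≤ ‖x‖) ∧ (∀ x, ‖u x‖ ≤ 3 * ‖x‖) ∧ (∀ v ∈ A, u (v - z) = 0) ∧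
      ∀ x, ‖x‖ ≤ 2 * (‖P x‖ + ‖u x‖) := by
  classical
  have hp1 : 1 ≤ p := one_le_p
  have hp0 : 0 < p := by linarith
  set S : Submodule ℝ (Ell p I) :=
    Submodule.span ℝ (((A.erase z).image fun v => v - z : Finset (Ell p I)) : Set (Ell p I))
    with hS
  have hfin : FiniteDimensional ℝ S := FiniteDimensional.span_finset ℝ _
  have hrN : Module.finrank ℝ S ≤ N := by
    refine (finrank_span_finset_le_card (R := ℝ) _).trans (Finset.card_image_le.trans ?_)
    rw [Finset.card_erase_of_mem hz]; omega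
  obtain ⟨b, l, hb, hrep⟩ := exists_auerbach S
  generalize hr : Module.finrank ℝ S = r at b l hb hrep hrN
  set G : ℕ := 4 * (N + 1) ^ 2 with hG
  have hGpos : (0 : ℝ) < G := by
    have : 0 < G := by rw [hG]; positivity
    exact_mod_cast this
  let lv : Ell p I := ∑ j, WithLp.toLp _ fun i => |b j i|
  let lam : I → ℝ := fun i => lv i
  have hlam : ∀ i, lam i = ∑ j, |b j i| := fun i => by simp [lam, lv, WithLp.ofLp_sum]
  have hlam0 : ∀ i, 0 ≤ lam i := fun i => by
    rw [hlam]; exact Finset.sum_nonneg fun j _ => abs_nonneg _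
  have hlv : ‖lv‖ ≤ N := by
    refine (norm_sum_le _ _).trans ?_
    calc ∑ j, ‖(WithLp.toLp _ fun i => |b j i| : Ell p I)‖ ≤ ∑ _j : Fin r, (1 : ℝ) := by
          refine Finset.sum_le_sum fun j _ => le_trans (le_of_eq ?_) (hb j).1
          rw [norm_eq_rpow, norm_eq_rpow]
          simp
      _ ≤ N := by simp; exact_mod_cast hrN
  have hbl : ∀ j i, |b j i| ≤ lam i := fun j i => by
    rw [hlam]
    exact Finset.single_le_sum (f := fun j => |b j i|) (fun k _ => abs_nonneg _) (Finset.mem_univ j)
  have hkeymem : ∀ i j, ⌊b j i / lam i * G⌋ ∈ Finset.Icc (-(G : ℤ)) G := by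
    intro i j
    have h1 : |b j i / lam i * G| ≤ (G : ℝ) := by
      rw [abs_mul, Nat.abs_cast, abs_div, abs_of_nonneg (hlam0 i)]
      exact mul_le_of_le_one_left hGpos.le (div_le_one_of_le₀ (hbl j i) (hlam0 i))
    rw [abs_le] at h1
    rw [Finset.mem_Icc]
    constructor
    · rw [Int.le_floor]; push_cast; exact h1.1
    · rw [← Int.lt_add_one_iff, Int.floor_lt]; push_cast; linarith [h1.2]
  let key : I → (Fin r → {t : ℤ // t ∈ Finset.Icc (-(G : ℤ)) G}) :=
    fun i j => ⟨_, hkeymem i j⟩
  obtain ⟨emb⟩ : Nonempty ((Fin r → {t : ℤ // t ∈ Finset.Icc (-(G : ℤ)) G}) ↪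
      Fin (projRank N)) := by
    refine Function.Embedding.nonempty_of_card_le ?_
    rw [Fintype.card_fun, Fintype.card_coe, Fintype.card_fin, Fintype.card_fin, Int.card_Icc]
    have : ((G : ℤ) + 1 - -(G : ℤ)).toNat = 8 * (N + 1) ^ 2 + 1 := by omega
    rw [this]
    exact Nat.pow_le_pow_right (by omega) hrN
  let cell : I → Fin (projRank N) := fun i => emb (key i)
  let tot : Fin (projRank N) → ℝ := fun c =>
    ∑ i ∈ Finset.univ.filter (fun i => cell i = c), lam i ^ p
  have htot : ∀ c, 0 ≤ tot c := fun c =>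
    Finset.sum_nonneg fun i _ => Real.rpow_nonneg (hlam0 i) _
  let mean : Ell p I →ₗ[ℝ] (Fin (projRank N) → ℝ) :=
    { toFun := fun x c =>
        (∑ i ∈ Finset.univ.filter (fun i => cell i = c), lam i ^ p / lam i * x i) / tot c
      map_add' := fun x y => by
        ext c; simp [mul_add, Finset.sum_add_distrib, add_div]
      map_smul' := fun t x => by
        ext c
        simp only [RingHom.id_apply, Pi.smul_apply, smul_eq_mul, PiLp.smul_apply]
        rw [mul_div_assoc', Finset.mul_sum]
        congr 1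
        exact Finset.sum_congr rfl fun i _ => by ring }
  let P : Ell p I →ₗ[ℝ] Ell p (Fin (projRank N)) :=
    { toFun := fun x => WithLp.toLp _ fun c => tot c ^ p⁻¹ * mean x c
      map_add' := fun x y => by ext c; simp [mul_add]
      map_smul' := fun t x => by
        ext c
        simp only [map_smul, RingHom.id_apply, Pi.smul_apply, PiLp.smul_apply, smul_eq_mul]
        ring }
  let back : Ell p I →ₗ[ℝ] Ell p I :=
    { toFun := fun x => WithLp.toLp _ fun i => lam i * mean x (cell i)
      map_add' := fun x y => by ext i; simp [mul_add]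
      map_smul' := fun t x => by
        ext i
        simp only [map_smul, RingHom.id_apply, Pi.smul_apply, PiLp.smul_apply, smul_eq_mul]
        ring }
  have hback : ∀ x, ‖back x‖ = ‖P x‖ := by
    intro x
    rw [norm_eq_rpow, norm_eq_rpow, ← Finset.sum_fiberwise Finset.univ cell]
    congr 1
    refine Finset.sum_congr rfl fun c _ => ?_
    simp only [P, LinearMap.coe_mk, AddHom.coe_mk]
    rw [abs_mul, Real.mul_rpow (abs_nonneg _) (abs_nonneg _),
      abs_of_nonneg (Real.rpow_nonneg (htot c) _), Real.rpow_inv_rpow (htot c) hp0.ne',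
      Finset.sum_mul]
    refine Finset.sum_congr rfl fun i hi => ?_
    rw [Finset.mem_filter] at hi
    simp only [back, LinearMap.coe_mk, AddHom.coe_mk, hi.2]
    rw [abs_mul, abs_of_nonneg (hlam0 i), Real.mul_rpow (hlam0 i) (abs_nonneg _)]
  have hP : ∀ x, ‖P x‖ ≤ ‖x‖ := by
    intro x
    refine norm_le_of_rpow_le _ (norm_nonneg x) ?_
    rw [norm_rpow_eq, ← Finset.sum_fiberwise Finset.univ cell (fun i => |x i| ^ p)]
    refine Finset.sum_le_sum fun c _ => ?_
    simp only [P, LinearMap.coe_mk, AddHom.coe_mk]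
    rw [abs_mul, Real.mul_rpow (abs_nonneg _) (abs_nonneg _),
      abs_of_nonneg (Real.rpow_nonneg (htot c) _), Real.rpow_inv_rpow (htot c) hp0.ne']
    set F := Finset.univ.filter fun i => cell i = c with hF
    rcases eq_or_lt_of_le (htot c) with h0 | h0
    · rw [← h0, zero_mul]
      exact Finset.sum_nonneg fun i _ => Real.rpow_nonneg (abs_nonneg _) _
    have hm : |mean x c| ≤ ∑ i ∈ F, lam i ^ p / tot c * (|x i| / lam i) := by
      simp only [mean, LinearMap.coe_mk, AddHom.coe_mk, ← hF, Finset.sum_div]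
      refine (Finset.abs_sum_le_sum_abs _ _).trans (le_of_eq (Finset.sum_congr rfl fun i _ => ?_))
      rw [abs_div, abs_mul, abs_div, abs_of_nonneg (Real.rpow_nonneg (hlam0 i) p),
        abs_of_nonneg (hlam0 i), abs_of_pos h0]
      ring
    have hJ := Real.rpow_arith_mean_le_arith_mean_rpow F (fun i => lam i ^ p / tot c)
      (fun i => |x i| / lam i) (fun i _ => div_nonneg (Real.rpow_nonneg (hlam0 i) _) (htot c))
      (by rw [← Finset.sum_div]; exact div_self h0.ne')
      (fun i _ => div_nonneg (abs_nonneg _) (hlam0 i)) hp1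
    calc tot c * |mean x c| ^ p
        ≤ tot c * ∑ i ∈ F, lam i ^ p / tot c * (|x i| / lam i) ^ p := by
          gcongr
          exact (Real.rpow_le_rpow (abs_nonneg _) hm hp0.le).trans hJ
      _ ≤ ∑ i ∈ F, |x i| ^ p := by
          rw [Finset.mul_sum]
          refine Finset.sum_le_sum fun i _ => ?_
          rcases eq_or_lt_of_le (hlam0 i) with hl | hl
          · rw [← hl, Real.zero_rpow hp0.ne']
            simp [Real.rpow_nonneg]
          · rw [Real.div_rpow (abs_nonneg _) hl.le, ← mul_assoc, mul_div_cancel₀ _ h0.ne',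
              mul_div_cancel₀ _ (Real.rpow_pos_of_pos hl p).ne']
  let Q : Ell p I →ₗ[ℝ] Ell p I :=
    ∑ j, ((l j : Ell p I →ₗ[ℝ] ℝ).smulRight (b j))
  have hQ : ∀ x, Q x = ∑ j, l j x • b j := fun x => by simp [Q, LinearMap.sum_apply]
  have herr : ∀ j, ‖b j - back (b j)‖ ≤ 2 * ((N : ℝ) / G) := by
    intro j
    set h : Ell p I := WithLp.toLp _ fun i => lam i * ((⌊b j i / lam i * G⌋ : ℝ) / G) with hh
    have hbh : ‖b j - h‖ ≤ (N : ℝ) / G := by
      have hsc : ‖((G : ℝ)⁻¹) • lv‖ ≤ (N : ℝ) / G := by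
        rw [norm_smul, Real.norm_of_nonneg (inv_nonneg.2 hGpos.le), inv_mul_eq_div]
        gcongr
      refine le_trans ?_ hsc
      rw [norm_eq_rpow, norm_eq_rpow]
      refine Real.rpow_le_rpow (Finset.sum_nonneg fun i _ => Real.rpow_nonneg (abs_nonneg _) _)
        (Finset.sum_le_sum fun i _ => Real.rpow_le_rpow (abs_nonneg _) ?_ hp0.le)
        (inv_nonneg.2 hp0.le)
      simp only [hh, PiLp.sub_apply, PiLp.smul_apply, smul_eq_mul]
      rw [abs_mul ((G : ℝ))⁻¹, abs_of_nonneg (inv_nonneg.2 hGpos.le)]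
      change _ ≤ (G : ℝ)⁻¹ * |lam i|
      rw [abs_of_nonneg (hlam0 i)]
      rcases eq_or_lt_of_le (hlam0 i) with hl | hl
      · have : b j i = 0 := abs_nonpos_iff.1 (hl ▸ hbl j i)
        simp [this, ← hl]
      · have e : b j i - lam i * ((⌊b j i / lam i * G⌋ : ℝ) / G) =
            lam i / G * Int.fract (b j i / lam i * G) := by
          rw [← Int.self_sub_floor]
          field_simp
        rw [e, abs_mul, abs_of_pos (by positivity), inv_mul_eq_div, Int.abs_fract]
        exact mul_le_of_le_one_right (by positivity) (Int.fract_lt_one _).le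
    have hfix : back h = h := by
      ext i
      simp only [back, mean, LinearMap.coe_mk, AddHom.coe_mk, hh]
      rcases eq_or_lt_of_le (hlam0 i) with hl | hl
      · rw [← hl]; simp
      have htpos : 0 < tot (cell i) := lt_of_lt_of_le (Real.rpow_pos_of_pos hl p)
        (Finset.single_le_sum (f := fun k => lam k ^ p) (fun k _ => Real.rpow_nonneg (hlam0 k) _)
          (by simp : i ∈ Finset.univ.filter fun k => cell k = cell i))
      congr 1
      rw [div_eq_iff htpos.ne']
      simp only [tot, Finset.mul_sum]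
      refine Finset.sum_congr rfl fun k hk => ?_
      rw [Finset.mem_filter] at hk
      have hkey : ⌊b j k / lam k * G⌋ = ⌊b j i / lam i * G⌋ := by
        have h' := congrArg (fun f => (f j : ℤ)) (emb.injective hk.2)
        exact h'
      rw [hkey]
      rcases eq_or_lt_of_le (hlam0 k) with hl' | hl'
      · rw [← hl', Real.zero_rpow hp0.ne']; simp
      · field_simp
    have e : b j - back (b j) = (b j - h) - back (b j - h) := by rw [map_sub, hfix]; abel
    rw [e]
    refine (norm_sub_le _ _).trans ?_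
    rw [hback]
    linarith [hP (b j - h)]
  let u : Ell p I →ₗ[ℝ] Ell p I := (LinearMap.id - back) ∘ₗ (LinearMap.id - Q)
  have hW : ∀ x, ‖Q x - back (Q x)‖ ≤ ‖x‖ / 2 := by
    intro x
    rw [hQ, map_sum, ← Finset.sum_sub_distrib]
    refine (norm_sum_le _ _).trans ?_
    calc ∑ j, ‖l j x • b j - back (l j x • b j)‖
        ≤ ∑ _j : Fin r, ‖x‖ * (2 * ((N : ℝ) / G)) := by
          refine Finset.sum_le_sum fun j _ => ?_
          rw [map_smul, ← smul_sub, norm_smul, Real.norm_eq_abs]
          exact mul_le_mul ((hb j).2.2 x) (herr j) (norm_nonneg _) (norm_nonneg _)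
      _ = (r : ℝ) * (‖x‖ * (2 * ((N : ℝ) / G))) := by simp
      _ ≤ (N : ℝ) * (‖x‖ * (2 * ((N : ℝ) / G))) := by
          gcongr
      _ ≤ ‖x‖ / 2 := by
          have : (N : ℝ) * (2 * ((N : ℝ) / G)) ≤ 1 / 2 := by
            rw [hG]; push_cast
            rw [mul_div_assoc', mul_div_assoc', div_le_iff₀ (by positivity)]
            nlinarith [Nat.cast_nonneg (α := ℝ) N]
          calc (N : ℝ) * (‖x‖ * (2 * ((N : ℝ) / G))) = ‖x‖ * ((N : ℝ) * (2 * ((N : ℝ) / G))) := by
                ring
            _ ≤ ‖x‖ * (1 / 2) := mul_le_mul_of_nonneg_left this (norm_nonneg _)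
            _ = ‖x‖ / 2 := by ring
  have hu : ∀ x, u x = (x - back x) - (Q x - back (Q x)) := fun x => by
    simp only [u, LinearMap.comp_apply, LinearMap.sub_apply, LinearMap.id_apply, map_sub]
  refine ⟨P, u, hP, fun x => ?_, fun v hv => ?_, fun x => ?_⟩
  · rw [hu]
    refine (norm_sub_le _ _).trans ?_
    have := norm_sub_le x (back x)
    rw [hback] at this
    linarith [hP x, hW x, norm_nonneg x]
  · have hmem : v - z ∈ S := by
      rcases eq_or_ne v z with rfl | hne
      · rw [sub_self]; exact S.zero_mem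
      · exact Submodule.subset_span (Finset.mem_coe.2
          (Finset.mem_image.2 ⟨v, Finset.mem_erase.2 ⟨hne, hv⟩, rfl⟩))
    rw [hu, hQ, hrep _ hmem, sub_self]
  · have h1 := hW x
    have e : x = back x + (u x + (Q x - back (Q x))) := by rw [hu]; abel
    have h2 : ‖x‖ ≤ ‖P x‖ + (‖u x‖ + ‖Q x - back (Q x)‖) := by
      calc ‖x‖ = ‖back x + (u x + (Q x - back (Q x)))‖ := congrArg norm e
        _ ≤ ‖back x‖ + (‖u x‖ + ‖Q x - back (Q x)‖) :=
            (norm_add_le _ _).trans (add_le_add le_rfl (norm_add_le _ _))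
        _ = _ := by rw [hback]
    linarith

end Vale.Agent.P249.Sub
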