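import Mathlib

/-!
Snapping onto a net through log-scale averages of balls: Lipschitz with constant one plus the
average logarithmic growth.
-/

namespace Vale.Agent.P249.Sub

open Finset

lemma sum_shift_le {g : ℕ → ℝ} (hg : Monotone g) (m k : ℕ) :
    ∑ i ∈ range m, (g (i + k) - g i) ≤ k * (g (m + k) - g 0) := by
  have h : ∀ i, g (i + k) - g i = ∑ l ∈ range k, (g (i + l + 1) - g (i + l)) := fun i => by
    have h2 := Finset.sum_range_sub (fun l => g (i + l)) k
    simp only [← add_assoc, add_zero] at h2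
    exact h2.symm
  rw [Finset.sum_congr rfl fun i _ => h i, Finset.sum_comm]
  calc ∑ l ∈ range k, ∑ i ∈ range m, (g (i + l + 1) - g (i + l))
      = ∑ l ∈ range k, (g (m + l) - g l) := by
        refine Finset.sum_congr rfl fun l _ => ?_
        have h2 := Finset.sum_range_sub (fun i => g (i + l)) m
        rw [Finset.sum_congr rfl (fun i _ => by rw [Nat.add_right_comm i l 1]), h2]
        simp
    _ ≤ ∑ _l ∈ range k, (g (m + k) - g 0) := by
        refine Finset.sum_le_sum fun l hl => sub_le_sub (hg ?_) (hg (Nat.zero_le l))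
        rw [Finset.mem_range] at hl; omega
    _ = _ := by simp; ring

variable {G : Type*} [NormedAddCommGroup G] [NormedSpace ℝ G] {α : Type*}

/-- Average over a finset. -/
noncomputable def favg (s : Finset α) (ψ : α → G) : G := (s.card : ℝ)⁻¹ • ∑ a ∈ s, ψ a

lemma favg_sub_const {s : Finset α} (hs : s.Nonempty) (ψ : α → G) (c : G) :
    favg s ψ - c = favg s fun a => ψ a - c := by
  have : (s.card : ℝ) ≠ 0 := by exact_mod_cast hs.card_pos.ne'
  simp only [favg, Finset.sum_sub_distrib, Finset.sum_const, smul_sub]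
  rw [← Nat.cast_smul_eq_nsmul ℝ, smul_smul, inv_mul_cancel₀ this, one_smul]

lemma norm_favg_le {s : Finset α} (ψ : α → G) {R : ℝ} (hR : 0 ≤ R) (h : ∀ a ∈ s, ‖ψ a‖ ≤ R) :
    ‖favg s ψ‖ ≤ R := by
  rcases s.eq_empty_or_nonempty with rfl | hs
  · simp [favg, hR]
  have : (0 : ℝ) < s.card := by exact_mod_cast hs.card_pos
  rw [favg, norm_smul, norm_inv, Real.norm_natCast, inv_mul_le_iff₀ this]
  calc ‖∑ a ∈ s, ψ a‖ ≤ ∑ a ∈ s, ‖ψ a‖ := norm_sum_le _ _
    _ ≤ ∑ _a ∈ s, R := Finset.sum_le_sum h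
    _ = _ := by simp

lemma norm_favg_sub_const_le {s : Finset α} (hs : s.Nonempty) (ψ : α → G) (c : G) {R : ℝ}
    (hR : 0 ≤ R) (h : ∀ a ∈ s, ‖ψ a - c‖ ≤ R) : ‖favg s ψ - c‖ ≤ R := by
  rw [favg_sub_const hs]; exact norm_favg_le _ hR h

lemma norm_favg_subset {I B : Finset α} [DecidableEq α] (hI : I.Nonempty) (hIB : I ⊆ B)
    (ψ : α → G) {M : ℝ} (hM : 0 ≤ M) (h : ∀ a ∈ B, ∀ b ∈ I, ‖ψ a - ψ b‖ ≤ M) :
    ‖favg B ψ - favg I ψ‖ ≤ (1 - (I.card : ℝ) / B.card) * M := by
  set c := favg I ψ with hc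
  have hB : (0 : ℝ) < B.card := by exact_mod_cast (hI.mono hIB).card_pos
  have hd : ∀ a ∈ B, ‖ψ a - c‖ ≤ M := fun a ha => by
    rw [norm_sub_rev]
    exact norm_favg_sub_const_le hI ψ _ hM fun b hb => by rw [norm_sub_rev]; exact h a ha b hb
  have hIc : ∑ a ∈ I, (ψ a - c) = 0 := by
    have hz : favg I (fun a => ψ a - c) = 0 := by rw [← favg_sub_const hI, ← hc, sub_self]
    rw [favg, smul_eq_zero] at hz
    exact hz.resolve_left (inv_ne_zero (by exact_mod_cast hI.card_pos.ne'))
  rw [favg_sub_const (hI.mono hIB), favg, ← Finset.sum_sdiff hIB, hIc, add_zero, norm_smul,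
    norm_inv, Real.norm_natCast, inv_mul_le_iff₀ hB]
  calc ‖∑ a ∈ B \ I, (ψ a - c)‖ ≤ ∑ a ∈ B \ I, ‖ψ a - c‖ := norm_sum_le _ _
    _ ≤ ∑ _a ∈ B \ I, M := Finset.sum_le_sum fun a ha => hd a (Finset.mem_sdiff.1 ha).1
    _ = ((B.card : ℝ) - I.card) * M := by
        simp [Finset.card_sdiff_of_subset hIB, Nat.cast_sub (Finset.card_le_card hIB)]
    _ = _ := by field_simp

variable {V : Type*} [Fintype V] [PseudoMetricSpace V]

/-- Lipschitz snapping of a map defined on a net. -/
theorem exists_snap (ρ : V → ℝ) (hρ : ∀ v, 0 < ρ v) (hρL : ∀ v w, |ρ v - ρ w| ≤ dist v w)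
    (S : Finset V) {T1 σ : ℝ} {L : ℕ} (hT1 : 0 < T1) (hL : 1 ≤ L) (hT2 : 2 ^ L * T1 ≤ 1)
    (hσ : 4 * σ ≤ T1) (hcover : ∀ v, ∃ s ∈ S, dist v s ≤ σ * ρ v) (ψ : V → G) {K : ℝ}
    (hK : 0 ≤ K) (hψ : ∀ s ∈ S, ∀ t ∈ S, ‖ψ s - ψ t‖ ≤ K * dist s t) :
    ∃ Ψ : V → G,
      (∀ v w, ‖Ψ v - Ψ w‖ ≤
        K * (20 + 180 * Real.log (Fintype.card V) / L) * dist v w) ∧
      ∀ v (c : G) (R : ℝ), 0 ≤ R →
        (∀ s ∈ S, dist v s ≤ 2 ^ L * T1 * ρ v → ‖ψ s - c‖ ≤ R) → ‖Ψ v - c‖ ≤ R := by
  classical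
  have hLp : (0 : ℝ) < L := by exact_mod_cast hL
  set J0 : ℕ := ⌈∑ v, ∑ w, ρ v / dist v w⌉₊ + 1 with hJ0
  have hJp : (0 : ℝ) < J0 := by rw [hJ0]; positivity
  let bb : V → ℕ → ℝ := fun v i => 2 ^ i * T1 * ρ v
  let tt : ℕ → ℕ → ℝ := fun i j => 2 ^ i * T1 * (1 + j / J0)
  let ball : V → ℝ → Finset V := fun v r => S.filter fun s => dist v s ≤ r
  let A : V → ℕ → ℕ → G := fun v i j => favg (ball v (tt i j * ρ v)) ψ
  have htlo : ∀ i j, 2 ^ i * T1 ≤ tt i j := fun i j =>
    le_mul_of_one_le_right (by positivity) (by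
      have : (0 : ℝ) ≤ j / J0 := by positivity
      linarith)
  have hthi : ∀ i j, j < J0 → tt i j ≤ 2 ^ (i + 1) * T1 := fun i j hj => by
    calc tt i j ≤ 2 ^ i * T1 * 2 := by
          refine mul_le_mul_of_nonneg_left ?_ (by positivity)
          have : (j : ℝ) / J0 ≤ 1 := (div_le_one hJp).2 (by exact_mod_cast hj.le)
          linarith
      _ = _ := by ring
  have ht1 : ∀ i j, i < L → j < J0 → tt i j ≤ 2 ^ L * T1 := fun i j hi hj =>
    (hthi i j hj).trans (mul_le_mul_of_nonneg_right (pow_le_pow_right₀ one_le_two hi) hT1.le)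
  have hcov' : ∀ v (r : ℝ), σ * ρ v ≤ r → (ball v r).Nonempty := fun v r h => by
    obtain ⟨s, hs, hd⟩ := hcover v
    exact ⟨s, Finset.mem_filter.2 ⟨hs, hd.trans h⟩⟩
  have hσ1 : ∀ i, σ ≤ 2 ^ i * T1 / 4 := fun i => by
    have : T1 ≤ 2 ^ i * T1 := le_mul_of_one_le_left hT1.le (one_le_pow₀ one_le_two)
    linarith
  have hne : ∀ v i j, (ball v (tt i j * ρ v)).Nonempty := fun v i j => hcov' v _
    (mul_le_mul_of_nonneg_right (by
      have := hσ1 i; have := htlo i j
      have : (0 : ℝ) ≤ 2 ^ i * T1 := by positivity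
      linarith) (hρ v).le)
  refine ⟨fun v => ((L : ℝ) * J0)⁻¹ • ∑ i ∈ range L, ∑ j ∈ range J0, A v i j, ?_, ?_⟩
  swap
  · intro v c R hR h
    have e : (((L : ℝ) * J0)⁻¹ • ∑ i ∈ range L, ∑ j ∈ range J0, A v i j) - c =
        ((L : ℝ) * J0)⁻¹ • ∑ i ∈ range L, ∑ j ∈ range J0, (A v i j - c) := by
      simp only [Finset.sum_sub_distrib, Finset.sum_const, Finset.card_range, smul_sub]
      rw [← Nat.cast_smul_eq_nsmul ℝ, ← Nat.cast_smul_eq_nsmul ℝ, smul_smul, smul_smul,
        mul_assoc, inv_mul_cancel₀ (by positivity), one_smul]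
    rw [e, norm_smul, norm_inv, Real.norm_of_nonneg (by positivity),
      inv_mul_le_iff₀ (by positivity)]
    refine (norm_sum_le _ _).trans ((Finset.sum_le_sum fun i hi => (norm_sum_le _ _).trans
      (Finset.sum_le_sum (g := fun _ => R) fun j hj => ?_)).trans (le_of_eq ?_))
    · refine norm_favg_sub_const_le (hne v i j) ψ c hR fun s hs => ?_
      rw [Finset.mem_filter] at hs
      exact h s hs.1 (hs.2.trans (mul_le_mul_of_nonneg_right
        (ht1 i j (Finset.mem_range.1 hi) (Finset.mem_range.1 hj)) (hρ v).le))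
    · simp; ring
  intro v w
  set D := dist v w with hD
  have hD0 : 0 ≤ D := dist_nonneg
  let f : ℝ → ℝ := fun r => Real.log ((max 1 (ball v r).card : ℕ) : ℝ)
  have hf : Monotone f := fun r r' hrr => by
    refine Real.log_le_log (Nat.cast_pos.2 (lt_of_lt_of_le one_pos (le_max_left _ _))) ?_
    refine Nat.cast_le.2 (max_le_max le_rfl (Finset.card_le_card fun s hs => ?_))
    rw [Finset.mem_filter] at hs ⊢
    exact ⟨hs.1, hs.2.trans hrr⟩
  have hf0 : ∀ r, 0 ≤ f r := fun r => Real.log_nonneg (by exact_mod_cast le_max_left 1 _)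
  have hfn : ∀ r, f r ≤ Real.log (Fintype.card V) := fun r => by
    refine Real.log_le_log (Nat.cast_pos.2 (lt_of_lt_of_le one_pos (le_max_left _ _))) ?_
    exact Nat.cast_le.2 (max_le (Fintype.card_pos_iff.2 ⟨v⟩) (Finset.card_le_univ _))
  let R : ℕ → ℕ → ℝ := fun i j => tt i j * ρ v
  have hRw : ∀ i j, i < L → j < J0 → |tt i j * ρ w - R i j| ≤ D := fun i j hi hj => by
    have h0 : 0 ≤ tt i j := le_trans (by positivity) (htlo i j)
    simp only [R]
    rw [← mul_sub, abs_mul, abs_of_nonneg h0, abs_sub_comm]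
    calc tt i j * |ρ v - ρ w| ≤ 1 * D :=
          mul_le_mul ((ht1 i j hi hj).trans hT2) (hρL v w) (abs_nonneg _) zero_le_one
      _ = D := one_mul D
  have hpair : ∀ i j, i < L → j < J0 → ∀ s ∈ ball v (R i j + 2 * D),
      ∀ t ∈ ball v (R i j + 2 * D), ‖ψ s - ψ t‖ ≤ K * (2 * (R i j + 2 * D)) := by
    intro i j hi hj s hs t ht
    rw [Finset.mem_filter] at hs ht
    refine (hψ s hs.1 t ht.1).trans (mul_le_mul_of_nonneg_left ?_ hK)
    linarith [dist_triangle s v t, dist_comm s v, hs.2, ht.2]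
  have hsubB : ∀ i j, ball v (R i j) ⊆ ball v (R i j + 2 * D) := fun i j s hs => by
    rw [Finset.mem_filter] at hs ⊢; exact ⟨hs.1, by linarith [hs.2]⟩
  have hsubW : ∀ i j, i < L → j < J0 →
      ball w (tt i j * ρ w) ⊆ ball v (R i j + 2 * D) := fun i j hi hj s hs => by
    rw [Finset.mem_filter] at hs ⊢
    exact ⟨hs.1, by linarith [hs.2, dist_triangle v w s, (abs_le.1 (hRw i j hi hj)).2]⟩
  have hterm : ∀ i j, i < L → j < J0 → ‖A v i j - A w i j‖ ≤ K * (2 * (R i j + 2 * D)) ∧
      (4 * D ≤ R i j → ‖A v i j - A w i j‖ ≤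
        2 * (K * (2 * (R i j + 2 * D))) * (f (R i j + 2 * D) - f (R i j - 2 * D))) := by
    intro i j hi hj
    have hR0 : 0 ≤ R i j := mul_nonneg (le_trans (by positivity) (htlo i j)) (hρ v).le
    have hM0 : 0 ≤ K * (2 * (R i j + 2 * D)) := mul_nonneg hK (by linarith)
    refine ⟨norm_favg_sub_const_le (hne v i j) ψ _ hM0 fun s hs => ?_, fun h4 => ?_⟩
    · rw [norm_sub_rev]
      exact norm_favg_sub_const_le (hne w i j) ψ _ hM0 fun t ht =>
        hpair i j hi hj t (hsubW i j hi hj ht) s (hsubB i j hs)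
    have hIne : (ball v (R i j - 2 * D)).Nonempty := hcov' v _ (by
      have h1 : σ * ρ v ≤ 2 ^ i * T1 / 4 * ρ v := mul_le_mul_of_nonneg_right (hσ1 i) (hρ v).le
      have h2 : 2 ^ i * T1 * ρ v ≤ R i j := mul_le_mul_of_nonneg_right (htlo i j) (hρ v).le
      linarith)
    have hIv : ball v (R i j - 2 * D) ⊆ ball v (R i j) := fun s hs => by
      rw [Finset.mem_filter] at hs ⊢; exact ⟨hs.1, by linarith [hs.2]⟩
    have hIw : ball v (R i j - 2 * D) ⊆ ball w (tt i j * ρ w) := fun s hs => by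
      rw [Finset.mem_filter] at hs ⊢
      exact ⟨hs.1, by linarith [hs.2, dist_triangle w v s, dist_comm w v,
        (abs_le.1 (hRw i j hi hj)).1]⟩
    have key : ∀ B : Finset V, ball v (R i j - 2 * D) ⊆ B → B ⊆ ball v (R i j + 2 * D) →
        ‖favg B ψ - favg (ball v (R i j - 2 * D)) ψ‖ ≤
          (f (R i j + 2 * D) - f (R i j - 2 * D)) * (K * (2 * (R i j + 2 * D))) := by
      intro B hIB hBO
      refine (norm_favg_subset hIne hIB ψ hM0 fun a ha b hb =>
        hpair i j hi hj a (hBO ha) b (hBO (hIB hb))).trans (mul_le_mul_of_nonneg_right ?_ hM0)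
      have hi0 := hIne.card_pos
      have hB0 := (hIne.mono hIB).card_pos
      have hO0 : 0 < (ball v (R i j + 2 * D)).card := ((hIne.mono hIB).mono hBO).card_pos
      simp only [f, max_eq_right (Nat.one_le_iff_ne_zero.2 hi0.ne'),
        max_eq_right (Nat.one_le_iff_ne_zero.2 hO0.ne')]
      rw [← Real.log_div (by exact_mod_cast hO0.ne') (by exact_mod_cast hi0.ne')]
      refine le_trans ?_ (Real.one_sub_inv_le_log_of_pos (by positivity))
      rw [inv_div]
      gcongr
    have h1 := key _ hIv (hsubB i j)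
    have h2 := key _ hIw (hsubW i j hi hj)
    have h3 := norm_sub_le_norm_sub_add_norm_sub (A v i j) (favg (ball v (R i j - 2 * D)) ψ)
      (A w i j)
    rw [norm_sub_rev (favg (ball v (R i j - 2 * D)) ψ) (A w i j)] at h3
    linarith
  let g : ℕ → ℝ := fun i => f (bb v i / 2)
  have hg : Monotone g := fun i i' hii => hf (by
    have := pow_le_pow_right₀ (one_le_two (α := ℝ)) hii
    have := hρ v
    simp only [bb]; gcongr)
  have hrow : ∀ i, i < L → ∑ j ∈ range J0, ‖A v i j - A w i j‖ ≤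
      (J0 : ℝ) * (K * D * (20 + 60 * (g (i + 3) - g i))) := by
    intro i hi
    have hgi : 0 ≤ g (i + 3) - g i := sub_nonneg.2 (hg (by omega))
    have hb0 : 0 < bb v i := mul_pos (by positivity) (hρ v)
    have hR2 : ∀ j, j < J0 → R i j ≤ 2 * bb v i := fun j hj => by
      calc R i j ≤ 2 ^ (i + 1) * T1 * ρ v := mul_le_mul_of_nonneg_right (hthi i j hj) (hρ v).le
        _ = _ := by simp only [bb]; ring
    rcases lt_or_ge (bb v i) (4 * D) with hsmall | hbig
    · calc ∑ j ∈ range J0, ‖A v i j - A w i j‖ ≤ ∑ _j ∈ range J0, K * D * 20 := by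
            refine Finset.sum_le_sum fun j hj => ?_
            rw [Finset.mem_range] at hj
            refine (hterm i j hi hj).1.trans ?_
            rw [mul_assoc K D]
            exact mul_le_mul_of_nonneg_left (by linarith [hR2 j hj]) hK
        _ = (J0 : ℝ) * (K * D * 20) := by simp
        _ ≤ _ := by
            gcongr
            linarith
    rcases eq_or_lt_of_le hD0 with hz | hpos
    · calc ∑ j ∈ range J0, ‖A v i j - A w i j‖ ≤ ∑ _j ∈ range J0, (0 : ℝ) := by
            refine Finset.sum_le_sum fun j hj => ?_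
            rw [Finset.mem_range] at hj
            refine ((hterm i j hi hj).2 ?_).trans (le_of_eq ?_)
            · rw [← hz, mul_zero]; exact mul_nonneg (le_trans (by positivity) (htlo i j)) (hρ v).le
            · rw [← hz]; simp
        _ = 0 := by simp
        _ ≤ _ := by positivity
    set h := bb v i / J0 with hh
    have hhD : h ≤ D := by
      rw [hh, div_le_iff₀ hJp]
      have h1 : ρ v / D ≤ ∑ v', ∑ w', ρ v' / dist v' w' := by
        refine le_trans ?_ (Finset.single_le_sum (f := fun v' => ∑ w', ρ v' / dist v' w')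
          (fun v' _ => Finset.sum_nonneg fun w' _ => div_nonneg (hρ v').le dist_nonneg)
          (Finset.mem_univ v))
        exact Finset.single_le_sum (f := fun w' => ρ v / dist v w')
          (fun w' _ => div_nonneg (hρ v).le dist_nonneg) (Finset.mem_univ w)
      have h2 : ρ v / D ≤ (J0 : ℝ) := by
        rw [hJ0]; push_cast; linarith [Nat.le_ceil (∑ v', ∑ w', ρ v' / dist v' w')]
      rw [div_le_iff₀ hpos] at h2
      have h3 : bb v i ≤ 1 * ρ v := by
        refine mul_le_mul_of_nonneg_right (le_trans ?_ hT2) (hρ v).le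
        exact mul_le_mul_of_nonneg_right (pow_le_pow_right₀ one_le_two hi.le) hT1.le
      linarith
    have hh0 : 0 < h := div_pos hb0 hJp
    set k := ⌈4 * D / h⌉₊ with hk
    have hk1 : 4 * D ≤ (k : ℝ) * h := by
      rw [← div_le_iff₀ hh0]; exact Nat.le_ceil _
    have hk2 : (k : ℝ) * h ≤ 5 * D := by
      have := (Nat.ceil_lt_add_one (div_nonneg (by linarith : (0 : ℝ) ≤ 4 * D) hh0.le)).le
      rw [← hk] at this
      have h2 := mul_le_mul_of_nonneg_right this hh0.le
      rw [add_mul, div_mul_cancel₀ _ hh0.ne'] at h2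
      linarith
    let F : ℕ → ℝ := fun j => f (bb v i + j * h - 2 * D)
    have hRj : ∀ j, R i j = bb v i + j * h := fun j => by
      simp only [R, bb, tt, hh]; field_simp
    have hFmono : Monotone F := fun j j' hjj => hf (by
      have : (j : ℝ) ≤ j' := by exact_mod_cast hjj
      nlinarith)
    have hFtel : F (J0 + k) - F 0 ≤ g (i + 3) - g i := by
      refine sub_le_sub (hf ?_) (hf ?_)
      · push_cast
        have : bb v (i + 3) / 2 = 4 * bb v i := by simp only [bb]; ring
        rw [this]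
        have : (J0 : ℝ) * h = bb v i := by rw [hh]; field_simp
        linarith
      · push_cast; linarith
    calc ∑ j ∈ range J0, ‖A v i j - A w i j‖
        ≤ ∑ j ∈ range J0, 12 * K * bb v i * (F (j + k) - F j) := by
          refine Finset.sum_le_sum fun j hj => ?_
          rw [Finset.mem_range] at hj
          have h4 : 4 * D ≤ R i j := by
            rw [hRj]
            have : (0 : ℝ) ≤ j * h := by positivity
            linarith
          refine ((hterm i j hi hj).2 h4).trans ?_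
          have hΔ : f (R i j + 2 * D) - f (R i j - 2 * D) ≤ F (j + k) - F j := by
            refine sub_le_sub (hf ?_) (le_of_eq ?_)
            · rw [hRj]; push_cast; linarith
            · simp only [F, hRj]
          have hΔ0 : 0 ≤ f (R i j + 2 * D) - f (R i j - 2 * D) := sub_nonneg.2 (hf (by linarith))
          refine mul_le_mul ?_ hΔ hΔ0 (by positivity)
          have := mul_le_mul_of_nonneg_left
            (show 2 * (R i j + 2 * D) ≤ 6 * bb v i by linarith [hR2 j hj]) hK
          linarith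
      _ = 12 * K * bb v i * ∑ j ∈ range J0, (F (j + k) - F j) := by rw [Finset.mul_sum]
      _ ≤ 12 * K * bb v i * (k * (F (J0 + k) - F 0)) := by
          gcongr; exact sum_shift_le hFmono J0 k
      _ = 12 * K * J0 * ((k : ℝ) * h) * (F (J0 + k) - F 0) := by rw [hh]; field_simp
      _ ≤ 12 * K * J0 * (5 * D) * (g (i + 3) - g i) := by
          refine mul_le_mul (mul_le_mul_of_nonneg_left hk2 (by positivity)) hFtel
            (sub_nonneg.2 (hFmono (Nat.zero_le _))) (by positivity)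
      _ = (J0 : ℝ) * (K * D * (60 * (g (i + 3) - g i))) := by ring
      _ ≤ _ := by
          gcongr
          linarith
  have htot : ∑ i ∈ range L, ∑ j ∈ range J0, ‖A v i j - A w i j‖ ≤
      (J0 : ℝ) * (K * D * (20 * L + 180 * Real.log (Fintype.card V))) := by
    refine (Finset.sum_le_sum fun i hi => hrow i (Finset.mem_range.1 hi)).trans ?_
    rw [← Finset.mul_sum, ← Finset.mul_sum, Finset.sum_add_distrib, ← Finset.mul_sum]
    have h1 := sum_shift_le hg L 3
    simp only [Finset.sum_const, Finset.card_range, nsmul_eq_mul]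
    refine mul_le_mul_of_nonneg_left (mul_le_mul_of_nonneg_left ?_ (mul_nonneg hK hD0)) hJp.le
    have h2 : g (L + 3) - g 0 ≤ Real.log (Fintype.card V) := by
      linarith [hf0 (bb v 0 / 2), hfn (bb v (L + 3) / 2)]
    push_cast at h1
    linarith
  rw [← smul_sub, ← Finset.sum_sub_distrib]
  simp only [← Finset.sum_sub_distrib]
  rw [norm_smul, norm_inv, Real.norm_of_nonneg (by positivity), inv_mul_le_iff₀ (by positivity)]
  refine ((norm_sum_le _ _).trans (Finset.sum_le_sum fun i _ => norm_sum_le _ _)).trans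
    (htot.trans ?_)
  have e : (L : ℝ) * J0 * (K * (20 + 180 * Real.log (Fintype.card V) / L) * D) =
      (J0 : ℝ) * (K * D * (20 * L + 180 * Real.log (Fintype.card V))) := by field_simp
  rw [e]

end Vale.Agent.P249.Sub
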