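import Vale.Agent.P249.Sub.Lift
import Vale.Agent.P249.Sub.Projection
import Vale.Agent.P249.Sub.Snap

/-!
The map used inside one cell: it is Lipschitz, bounded, and preserves all distances that are not
much smaller than the local radius.
-/

namespace Vale.Agent.P249.Sub

open Finset

/-- Greedy selection ordered by a key. -/
lemma exists_greedy {V : Type*} [DecidableEq V] (U : Finset V) (key : V → ℝ) (Rel : V → V → Prop)
    (hsymm : ∀ a b, Rel a b → Rel b a) :
    ∃ S ⊆ U, (∀ a ∈ S, ∀ b ∈ S, a ≠ b → ¬ Rel a b) ∧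
      ∀ u ∈ U, ∃ s ∈ S, key s ≤ key u ∧ (s = u ∨ Rel u s) := by
  classical
  induction U using Finset.induction_on_max_value key with
  | empty => exact ⟨∅, subset_refl _, by simp, by simp⟩
  | insert a T ha hmax ih =>
    obtain ⟨S, hST, hsep, hcov⟩ := ih
    by_cases hex : ∃ s ∈ S, Rel a s
    · obtain ⟨s, hs, hr⟩ := hex
      refine ⟨S, hST.trans (Finset.subset_insert _ _), hsep, fun u hu => ?_⟩
      rcases Finset.mem_insert.1 hu with rfl | hu
      · exact ⟨s, hs, hmax s (hST hs), Or.inr hr⟩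
      · exact hcov u hu
    · push Not at hex
      refine ⟨insert a S, Finset.insert_subset_insert _ hST, ?_, fun u hu => ?_⟩
      · intro x hx y hy hxy
        rcases Finset.mem_insert.1 hx with hxa | hxS <;> rcases Finset.mem_insert.1 hy with hya | hyS
        · exact absurd (hxa.trans hya.symm) hxy
        · rw [hxa]; exact hex y hyS
        · rw [hya]; exact fun h => hex x hxS (hsymm _ _ h)
        · exact hsep x hxS y hyS hxy
      · rcases Finset.mem_insert.1 hu with rfl | hu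
        · exact ⟨u, Finset.mem_insert_self _ _, le_rfl, Or.inl rfl⟩
        · obtain ⟨s, hs, h⟩ := hcov u hu
          exact ⟨s, Finset.mem_insert_of_mem hs, h⟩

/-- A scale window: one on `[2^b, 4 * 2^b]`, zero outside `(2^b / 2, 8 * 2^b)`. -/
noncomputable def window (b : ℤ) (r : ℝ) : ℝ :=
  min 1 (max 0 (min (2 * r / (2 : ℝ) ^ b - 1) (2 - r / (4 * (2 : ℝ) ^ b))))

lemma window_nonneg (b : ℤ) (r : ℝ) : 0 ≤ window b r := le_min zero_le_one (le_max_left _ _)

lemma window_le_one (b : ℤ) (r : ℝ) : window b r ≤ 1 := min_le_left _ _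

lemma window_eq_one {b : ℤ} {r : ℝ} (h1 : (2 : ℝ) ^ b ≤ r) (h2 : r ≤ 4 * (2 : ℝ) ^ b) :
    window b r = 1 := by
  have hb : (0 : ℝ) < (2 : ℝ) ^ b := by positivity
  refine min_eq_left (le_max_of_le_right (le_min ?_ ?_))
  · rw [le_sub_iff_add_le, le_div_iff₀ hb]; linarith
  · rw [le_sub_comm, div_le_iff₀ (by positivity)]; linarith

lemma of_window_pos {b : ℤ} {r : ℝ} (h : 0 < window b r) :
    (2 : ℝ) ^ b < 2 * r ∧ r < 8 * (2 : ℝ) ^ b := by
  have hb : (0 : ℝ) < (2 : ℝ) ^ b := by positivity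
  have h' : 0 < min (2 * r / (2 : ℝ) ^ b - 1) (2 - r / (4 * (2 : ℝ) ^ b)) :=
    (lt_max_iff.1 (lt_min_iff.1 h).2).resolve_left (lt_irrefl _)
  obtain ⟨ha, hc⟩ := lt_min_iff.1 h'
  constructor
  · rw [lt_sub_iff_add_lt, zero_add, lt_div_iff₀ hb] at ha; linarith
  · rw [lt_sub_iff_add_lt, zero_add, div_lt_iff₀ (by positivity)] at hc; linarith

lemma window_lip (b : ℤ) (r r' : ℝ) :
    |window b r - window b r'| ≤ 2 / (2 : ℝ) ^ b * |r - r'| := by
  have hb : (0 : ℝ) < (2 : ℝ) ^ b := by positivity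
  unfold window
  refine (abs_min_sub_min_le_max _ _ _ _).trans (max_le (by simp; positivity) ?_)
  refine (abs_max_sub_max_le_max _ _ _ _).trans (max_le (by simp; positivity) ?_)
  refine (abs_min_sub_min_le_max _ _ _ _).trans (max_le (le_of_eq ?_) ?_)
  · rw [show 2 * r / (2 : ℝ) ^ b - 1 - (2 * r' / (2 : ℝ) ^ b - 1) =
      2 / (2 : ℝ) ^ b * (r - r') by ring, abs_mul, abs_of_pos (by positivity)]
  · rw [show 2 - r / (4 * (2 : ℝ) ^ b) - (2 - r' / (4 * (2 : ℝ) ^ b)) =
      -(1 / (4 * (2 : ℝ) ^ b) * (r - r')) by ring, abs_neg, abs_mul, abs_of_pos (by positivity)]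
    refine mul_le_mul_of_nonneg_right ?_ (abs_nonneg _)
    rw [div_le_div_iff₀ (by positivity) hb]
    linarith

variable {p : ℝ} [hp : Fact (1 ≤ ENNReal.ofReal p)]

/-- Dimension bound for the radial lift. -/
noncomputable def radialDim (p : ℝ) (L n : ℕ) : ℝ :=
  (2 * liftConst p * ((2 : ℝ) ^ (7 * L)) ^ p * ((Nat.log 2 n : ℝ) + 1)) ^ (2 * (⌈p⌉₊ + 3))

/-- The radial lift: one fixed-scale lift per dyadic radius, nine interleaved groups. -/
lemma exists_radial {V I : Type*} [Fintype V] [Fintype I] [PseudoMetricSpace V]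
    (u : V → Ell p I) (ρ : V → ℝ) (hρ : ∀ v, 0 < ρ v) (hρL : ∀ v w, |ρ v - ρ w| ≤ dist v w)
    (hu : ∀ v, ‖u v‖ ≤ 30 * ρ v) (huL : ∀ v w, ‖u v - u w‖ ≤ 3 * dist v w)
    (S : Finset V) {L : ℕ}
    (hsep : ∀ s ∈ S, ∀ t ∈ S, s ≠ t → 1 / (2 : ℝ) ^ (7 * L) * max (ρ s) (ρ t) < dist s t) :
    ∃ (d : ℕ) (ψ : V → Ell p (Fin 9 × Fin d)), (d : ℝ) ≤ radialDim p L (Fintype.card V) ∧
      (∀ s ∈ S, ‖ψ s‖ ≤ 40000 * ρ s) ∧
      (∀ s ∈ S, ∀ t ∈ S, ‖ψ s - ψ t‖ ≤ 108000 * dist s t) ∧
      ∀ s ∈ S, ∀ t ∈ S, ρ s ≤ 4 / 3 * ρ t → ρ t ≤ 4 / 3 * ρ s →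
        ‖u s - u t‖ ≤ 32 * ‖ψ s - ψ t‖ +
          15360 * (1 / (2 : ℝ) ^ (7 * L)) * max (ρ s) (ρ t) := by
  classical
  have hp1 : 1 ≤ p := one_le_p
  set σ := 1 / (2 : ℝ) ^ (7 * L) with hσ
  have hσ0 : 0 < σ := by positivity
  have hσ1 : σ ≤ 1 := by
    rw [hσ, div_le_one (by positivity)]; exact one_le_pow₀ one_le_two
  have hex : ∀ b : ℤ, ∃ (d : ℕ) (φ : V → Ell p (Fin d)),
      (d : ℝ) ≤ radialDim p L (Fintype.card V) ∧
      (∀ s, ‖φ s‖ ≤ 8 * (240 * (2 : ℝ) ^ b)) ∧
      ∀ s ∈ S, ∀ t ∈ S, 0 < window b (ρ s) → 0 < window b (ρ t) →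
        ‖φ s - φ t‖ ≤ 4 * (‖u s - u t‖ + σ * (240 * (2 : ℝ) ^ b)) ∧
        ‖u s - u t‖ / 32 - σ * (240 * (2 : ℝ) ^ b) ≤ ‖φ s - φ t‖ := by
    intro b
    set W := 240 * (2 : ℝ) ^ b with hW
    have hW0 : 0 < W := by positivity
    let U := {s : V // s ∈ S ∧ 0 < window b (ρ s)}
    obtain ⟨d, ψ, hd, hψn, hψ⟩ := exists_lift (U := U) (fun s => W⁻¹ • u s.1) (fun s => by
      rw [norm_smul, norm_inv, Real.norm_of_nonneg hW0.le, inv_mul_le_iff₀ hW0]
      have := (of_window_pos s.2.2).2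
      linarith [hu s.1]) hσ0 hσ1
    refine ⟨d, fun s => if h : s ∈ S ∧ 0 < window b (ρ s) then W • ψ ⟨s, h⟩ else 0, ?_, ?_, ?_⟩
    · refine hd.trans ?_
      have := liftConst_pos p
      unfold radialDim
      rw [hσ, one_div_one_div]
      gcongr
      exact Fintype.card_subtype_le _
    · intro s
      dsimp only
      split
      · rw [norm_smul, Real.norm_of_nonneg hW0.le, mul_comm]
        gcongr
        exact hψn _
      · simp; positivity
    · intro s hs t ht hws hwt
      simp only [dif_pos (show s ∈ S ∧ 0 < window b (ρ s) from ⟨hs, hws⟩),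
        dif_pos (show t ∈ S ∧ 0 < window b (ρ t) from ⟨ht, hwt⟩)]
      rw [← smul_sub, norm_smul,
        Real.norm_of_nonneg hW0.le]
      have h := hψ ⟨s, hs, hws⟩ ⟨t, ht, hwt⟩
      rw [← smul_sub, norm_smul, norm_inv, Real.norm_of_nonneg hW0.le] at h
      obtain ⟨h1, h2⟩ := h
      constructor
      · refine (mul_le_mul_of_nonneg_left h1 hW0.le).trans_eq ?_
        field_simp
      · refine le_trans (le_of_eq ?_) (mul_le_mul_of_nonneg_left h2 hW0.le)
        field_simp
  choose dd φ hdd hφn hφ using hex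
  set d := ⌊radialDim p L (Fintype.card V)⌋₊ with hd
  have hR0 : 0 ≤ radialDim p L (Fintype.card V) := by
    have := liftConst_pos p
    unfold radialDim; positivity
  have hdd' : ∀ b, dd b ≤ d := fun b => Nat.le_floor (hdd b)
  let φ' : ℤ → V → Ell p (Fin d) := fun b s => pad (Fin.castLEEmb (hdd' b)) (φ b s)
  let B : Finset ℤ := S.biUnion fun s => Finset.Icc (Int.log 2 (ρ s) - 3) (Int.log 2 (ρ s) + 3)
  have hlog : ∀ s, (2 : ℝ) ^ Int.log 2 (ρ s) ≤ ρ s ∧
      ρ s < (2 : ℝ) ^ (Int.log 2 (ρ s) + 1) := fun s => by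
    constructor
    · exact_mod_cast Int.zpow_log_le_self one_lt_two (hρ s)
    · exact_mod_cast Int.lt_zpow_succ_log_self one_lt_two (ρ s)
  have hrange : ∀ s b, 0 < window b (ρ s) →
      Int.log 2 (ρ s) - 2 ≤ b - 0 ∧ b ≤ Int.log 2 (ρ s) + 1 := by
    intro s b h
    obtain ⟨h1, h2⟩ := of_window_pos h
    obtain ⟨h3, h4⟩ := hlog s
    constructor
    · have : (2 : ℝ) ^ Int.log 2 (ρ s) < (2 : ℝ) ^ (b + 3) := by
        rw [zpow_add₀ two_ne_zero]; norm_num; linarith
      have := (zpow_lt_zpow_iff_right₀ one_lt_two).1 this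
      omega
    · have : (2 : ℝ) ^ b < (2 : ℝ) ^ (Int.log 2 (ρ s) + 1 + 1) := by
        rw [zpow_add_one₀ two_ne_zero]; linarith
      have := (zpow_lt_zpow_iff_right₀ one_lt_two).1 this
      omega
  let key : ℤ → Fin 9 := fun b => ⟨(b % 9).toNat, by omega⟩
  let g : ℤ → V → Ell p (Fin d) := fun b s => window b (ρ s) • φ' b s
  let comp : Fin 9 → V → Ell p (Fin d) := fun r s => ∑ b ∈ B.filter (fun b => key b = r), g b s
  let ψ : V → Ell p (Fin 9 × Fin d) := fun s => WithLp.toLp _ fun rj => comp rj.1 s rj.2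
  have hφ'n : ∀ b s, ‖φ' b s‖ ≤ 1920 * (2 : ℝ) ^ b := fun b s => by
    simp only [φ', norm_pad]; linarith [hφn b s]
  have hgz : ∀ b s, window b (ρ s) = 0 → g b s = 0 := fun b s h => by simp [g, h]
  have hone : ∀ (s : V) (r : Fin 9),
      ((B.filter fun b => key b = r).filter fun b => 0 < window b (ρ s)).card ≤ 1 := by
    intro s r
    rw [Finset.card_le_one]
    intro a ha b hb
    simp only [Finset.mem_filter] at ha hb
    have h1 := hrange s a ha.2
    have h2 := hrange s b hb.2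
    have h3 := congrArg Fin.val (ha.1.2.trans hb.1.2.symm)
    simp only [key] at h3
    omega
  have hzero : ∀ (s : V) b, ¬ 0 < window b (ρ s) → g b s = 0 := fun s b h =>
    hgz b s (le_antisymm (le_of_not_gt h) (window_nonneg _ _))
  have hcomp : ∀ (s : V) (r : Fin 9), comp r s =
      ∑ b ∈ (B.filter fun b => key b = r).filter (fun b => 0 < window b (ρ s)), g b s := by
    intro s r
    symm
    refine Finset.sum_subset (Finset.filter_subset _ _) fun b hb hb' => hzero s b fun hc => ?_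
    exact hb' (Finset.mem_filter.2 ⟨hb, hc⟩)
  have hgn : ∀ b s, ‖g b s‖ ≤ 3840 * ρ s := by
    intro b s
    rcases eq_or_lt_of_le (window_nonneg b (ρ s)) with h | h
    · rw [hgz b s h.symm, norm_zero]; linarith [hρ s]
    simp only [g]
    rw [norm_smul, Real.norm_of_nonneg (window_nonneg _ _)]
    refine (mul_le_of_le_one_left (norm_nonneg _) (window_le_one _ _)).trans ((hφ'n b s).trans ?_)
    linarith [(of_window_pos h).1]
  have hψn : ∀ s t, ‖ψ s - ψ t‖ ≤ ∑ r, ‖comp r s - comp r t‖ := by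
    intro s t
    refine norm_le_of_rpow_le _ (Finset.sum_nonneg fun r _ => norm_nonneg _) ?_
    rw [Fintype.sum_prod_type]
    refine le_trans (le_of_eq (Finset.sum_congr rfl fun r _ => ?_))
      (sum_rpow_le_rpow_sum Finset.univ hp1 fun r => norm_nonneg (comp r s - comp r t))
    rw [norm_rpow_eq]; rfl
  have hψl : ∀ s t r, ‖comp r s - comp r t‖ ≤ ‖ψ s - ψ t‖ := by
    intro s t r
    refine le_norm_of_le_rpow _ (norm_nonneg _) ?_
    rw [norm_rpow_eq, Fintype.sum_prod_type]
    exact Finset.single_le_sum (f := fun r => ∑ j, |(ψ s - ψ t) (r, j)| ^ p)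
      (fun r _ => Finset.sum_nonneg fun j _ => Real.rpow_nonneg (abs_nonneg _) _)
      (Finset.mem_univ r)
  have hg : ∀ b, ∀ s ∈ S, ∀ t ∈ S, ‖g b s - g b t‖ ≤ 6000 * dist s t := by
    intro b s hs t ht
    have hb : (0 : ℝ) < (2 : ℝ) ^ b := by positivity
    have hD : 0 ≤ dist s t := dist_nonneg
    rcases eq_or_ne s t with rfl | hst
    · simp
    have hwd : |window b (ρ s) - window b (ρ t)| * (1920 * (2 : ℝ) ^ b) ≤ 3840 * dist s t := by
      calc |window b (ρ s) - window b (ρ t)| * (1920 * (2 : ℝ) ^ b)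
          ≤ (2 / (2 : ℝ) ^ b * dist s t) * (1920 * (2 : ℝ) ^ b) := by
            refine mul_le_mul_of_nonneg_right ((window_lip b _ _).trans ?_) (by positivity)
            gcongr
            exact hρL s t
        _ = 3840 * dist s t := by field_simp; ring
    rcases eq_or_lt_of_le (window_nonneg b (ρ t)) with ht0 | ht0
    · rw [hgz b t ht0.symm, sub_zero]
      simp only [g]
      rw [norm_smul, Real.norm_eq_abs]
      calc |window b (ρ s)| * ‖φ' b s‖
          ≤ |window b (ρ s) - window b (ρ t)| * (1920 * (2 : ℝ) ^ b) := by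
            rw [← ht0, sub_zero]; gcongr; exact hφ'n b s
        _ ≤ _ := by linarith
    rcases eq_or_lt_of_le (window_nonneg b (ρ s)) with hs0 | hs0
    · rw [hgz b s hs0.symm, zero_sub, norm_neg]
      simp only [g]
      rw [norm_smul, Real.norm_eq_abs]
      calc |window b (ρ t)| * ‖φ' b t‖
          ≤ |window b (ρ s) - window b (ρ t)| * (1920 * (2 : ℝ) ^ b) := by
            rw [← hs0, zero_sub, abs_neg]; gcongr; exact hφ'n b t
        _ ≤ _ := by linarith
    have e : g b s - g b t = (window b (ρ s) - window b (ρ t)) • φ' b s +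
        window b (ρ t) • (φ' b s - φ' b t) := by
      simp only [g, sub_smul, smul_sub]; abel
    rw [e]
    refine (norm_add_le _ _).trans ?_
    rw [norm_smul, norm_smul, Real.norm_eq_abs, Real.norm_of_nonneg (window_nonneg _ _)]
    have h1 : ‖φ' b s - φ' b t‖ ≤ 2000 * dist s t := by
      simp only [φ', pad_sub, norm_pad]
      refine (hφ b s hs t ht hs0 ht0).1.trans ?_
      have h2 : σ * (240 * (2 : ℝ) ^ b) ≤ 480 * dist s t := by
        have h3 : σ * ρ s ≤ σ * max (ρ s) (ρ t) :=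
          mul_le_mul_of_nonneg_left (le_max_left _ _) hσ0.le
        have h4 := (hsep s hs t ht hst).le
        have h5 : σ * (2 : ℝ) ^ b ≤ σ * (2 * ρ s) :=
          mul_le_mul_of_nonneg_left (of_window_pos hs0).1.le hσ0.le
        linarith
      linarith [huL s t]
    have h6 : window b (ρ t) * ‖φ' b s - φ' b t‖ ≤ 1 * (2000 * dist s t) :=
      mul_le_mul (window_le_one _ _) h1 (norm_nonneg _) zero_le_one
    have h7 : |window b (ρ s) - window b (ρ t)| * ‖φ' b s‖ ≤ 3840 * dist s t :=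
      le_trans (mul_le_mul_of_nonneg_left (hφ'n b s) (abs_nonneg _)) hwd
    linarith
  refine ⟨d, ψ, Nat.floor_le hR0, fun s _ => ?_, fun s hs t ht => ?_, fun s hs t ht h1 h2 => ?_⟩
  · have hr : ∀ r, ‖comp r s‖ ≤ 3840 * ρ s := by
      intro r
      rw [hcomp]
      refine (norm_sum_le _ _).trans ((Finset.sum_le_sum fun b _ => hgn b s).trans ?_)
      simp only [Finset.sum_const, nsmul_eq_mul]
      exact mul_le_of_le_one_left (by linarith [hρ s]) (by exact_mod_cast hone s r)
    refine norm_le_of_rpow_le _ (by linarith [hρ s]) ?_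
    rw [Fintype.sum_prod_type]
    calc ∑ r, ∑ j, |ψ s (r, j)| ^ p = ∑ r, ‖comp r s‖ ^ p := by
          refine Finset.sum_congr rfl fun r _ => ?_
          rw [norm_rpow_eq (comp r s)]
      _ ≤ (∑ r, ‖comp r s‖) ^ p := sum_rpow_le_rpow_sum _ hp1 fun r => norm_nonneg _
      _ ≤ _ := by
          refine Real.rpow_le_rpow (Finset.sum_nonneg fun r _ => norm_nonneg _) ?_ (by linarith)
          refine (Finset.sum_le_sum fun r _ => hr r).trans ?_
          simp; linarith [hρ s]
  · refine (hψn s t).trans ?_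
    have hr : ∀ r, ‖comp r s - comp r t‖ ≤ 12000 * dist s t := by
      intro r
      set U := (B.filter fun b => key b = r).filter
        fun b => 0 < window b (ρ s) ∨ 0 < window b (ρ t) with hU
      have e : comp r s - comp r t = ∑ b ∈ U, (g b s - g b t) := by
        simp only [comp, ← Finset.sum_sub_distrib]
        symm
        refine Finset.sum_subset (Finset.filter_subset _ _) fun b hb hb' => ?_
        simp only [hU, Finset.mem_filter] at hb'
        push Not at hb'
        obtain ⟨h1, h2⟩ := hb' (Finset.mem_filter.1 hb)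
        rw [hzero s b h1.not_gt, hzero t b h2.not_gt, sub_zero]
      have hc : U.card ≤ 2 := by
        rw [hU, Finset.filter_or]
        exact (Finset.card_union_le _ _).trans (add_le_add (hone s r) (hone t r))
      rw [e]
      refine (norm_sum_le _ _).trans ((Finset.sum_le_sum fun b _ => hg b s hs t ht).trans ?_)
      simp only [Finset.sum_const, nsmul_eq_mul]
      have hc' : (U.card : ℝ) ≤ 2 := by exact_mod_cast hc
      have := mul_le_mul_of_nonneg_right hc' (show (0 : ℝ) ≤ 6000 * dist s t by positivity)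
      linarith
    refine (Finset.sum_le_sum fun r _ => hr r).trans ?_
    simp; linarith
  · set b := Int.log 2 (min (ρ s) (ρ t)) with hb
    have hmin : 0 < min (ρ s) (ρ t) := lt_min (hρ s) (hρ t)
    have hlo : (2 : ℝ) ^ b ≤ min (ρ s) (ρ t) := by
      exact_mod_cast Int.zpow_log_le_self one_lt_two hmin
    have hhi : min (ρ s) (ρ t) < (2 : ℝ) ^ b * 2 := by
      have := Int.lt_zpow_succ_log_self (R := ℝ) one_lt_two (min (ρ s) (ρ t))
      rw [← hb] at this
      push_cast at this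
      rwa [zpow_add_one₀ two_ne_zero] at this
    have hws : window b (ρ s) = 1 := by
      refine window_eq_one (hlo.trans (min_le_left _ _)) ?_
      rcases min_cases (ρ s) (ρ t) with ⟨e, -⟩ | ⟨e, -⟩ <;> rw [e] at hhi <;> linarith
    have hwt : window b (ρ t) = 1 := by
      refine window_eq_one (hlo.trans (min_le_right _ _)) ?_
      rcases min_cases (ρ s) (ρ t) with ⟨e, -⟩ | ⟨e, -⟩ <;> rw [e] at hhi <;> linarith
    have hcb : ∀ v ∈ S, window b (ρ v) = 1 → comp (key b) v = φ' b v := by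
      intro v hv hw
      have hbB : b ∈ B := by
        refine Finset.mem_biUnion.2 ⟨v, hv, Finset.mem_Icc.2 ?_⟩
        have := hrange v b (by rw [hw]; exact one_pos)
        constructor <;> omega
      have hmem : b ∈ (B.filter fun b' => key b' = key b).filter fun b' => 0 < window b' (ρ v) :=
        Finset.mem_filter.2 ⟨Finset.mem_filter.2 ⟨hbB, rfl⟩, by rw [hw]; exact one_pos⟩
      rw [hcomp]
      rw [Finset.eq_singleton_iff_unique_mem.2
        ⟨hmem, fun y hy => Finset.card_le_one.1 (hone v (key b)) y hy b hmem⟩]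
      simp [g, hw]
    have h3 := hψl s t (key b)
    rw [hcb s hs hws, hcb t ht hwt] at h3
    simp only [φ', pad_sub, norm_pad] at h3
    have h4 := (hφ b s hs t ht (by rw [hws]; exact one_pos) (by rw [hwt]; exact one_pos)).2
    have h5 : σ * (2 : ℝ) ^ b ≤ σ * max (ρ s) (ρ t) :=
      mul_le_mul_of_nonneg_left ((hlo.trans (min_le_left _ _)).trans (le_max_left _ _)) hσ0.le
    have h6 : 0 ≤ σ * max (ρ s) (ρ t) := mul_nonneg hσ0.le ((hρ s).le.trans (le_max_left _ _))
    linarith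

/-- The dimension of the map inside one cell. -/
noncomputable def cellDim (p : ℝ) (L N n : ℕ) : ℝ :=
  projRank N + 9 * radialDim p L n + 1

/-- Lipschitz constant of the map inside one cell. -/
def cellLip (Lam : ℝ) : ℝ := 2 + 108000 * (20 + 180 * Lam)

/-- The map inside one cell. -/
theorem exists_cell {V I : Type*} [Fintype V] [Fintype I] [PseudoMetricSpace V] (x : V → Ell p I)
    (hx : ∀ v w, dist v w = ‖x v - x w‖) (A : Finset V) {z : V} (hz : z ∈ A) {N : ℕ}
    (hA : A.card ≤ N + 1) (ρ : V → ℝ) (hρ : ∀ v, 0 < ρ v)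
    (hρL : ∀ v w, |ρ v - ρ w| ≤ dist v w) (hnear : ∀ v, ∃ a ∈ A, dist v a ≤ 10 * ρ v)
    {L : ℕ} (hL : 15 ≤ L) {Lam : ℝ} (hLam : Real.log (Fintype.card V) ≤ Lam * L) :
    ∃ (d : ℕ) (E : V → Ell p (Fin d)), (d : ℝ) ≤ cellDim p L N (Fintype.card V) ∧
      (∀ v w, ‖E v - E w‖ ≤ cellLip Lam * dist v w) ∧
      (∀ v, ‖E v‖ ≤ dist v z + 90000 * ρ v) ∧
      ∀ v w, ρ v ≤ (2 : ℝ) ^ (3 * L) * dist v w → ρ w ≤ (2 : ℝ) ^ (3 * L) * dist v w →
        dist v w ≤ 5000 * ‖E v - E w‖ := by
  classical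
  have hp1 : 1 ≤ p := one_le_p
  obtain ⟨P, U, hP, hU, hUA, hlow⟩ := exists_projection (A.image x)
    (Finset.mem_image_of_mem x hz) (Finset.card_image_le.trans hA)
  let u : V → Ell p I := fun v => U (x v - x z)
  have hu : ∀ v, ‖u v‖ ≤ 30 * ρ v := by
    intro v
    obtain ⟨a, ha, hd⟩ := hnear v
    have e : u v = U (x v - x a) := by
      have h0 := hUA (x a) (Finset.mem_image_of_mem x ha)
      simp only [u]
      rw [show x v - x z = (x v - x a) + (x a - x z) by abel, map_add, h0, add_zero]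
    rw [e]
    refine (hU _).trans ?_
    rw [← hx]
    linarith
  have huL : ∀ v w, ‖u v - u w‖ ≤ 3 * dist v w := fun v w => by
    simp only [u]
    rw [← map_sub, sub_sub_sub_cancel_right, hx]
    exact hU _
  set σ := 1 / (2 : ℝ) ^ (7 * L) with hσ
  have hσ0 : 0 < σ := by positivity
  obtain ⟨S, -, hsep, hcov⟩ := exists_greedy (Finset.univ : Finset V) ρ
    (fun a b => dist a b ≤ σ * max (ρ a) (ρ b))
    (fun a b h => by rwa [dist_comm, max_comm])
  have hcover : ∀ v, ∃ s ∈ S, dist v s ≤ σ * ρ v := by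
    intro v
    obtain ⟨s, hs, hk, h⟩ := hcov v (Finset.mem_univ v)
    rcases h with rfl | h
    · exact ⟨s, hs, by rw [dist_self]; exact mul_nonneg hσ0.le (hρ s).le⟩
    · exact ⟨s, hs, by rwa [max_eq_left hk] at h⟩
  obtain ⟨d0, ψ, hd0, hψn, hψup, hψlow⟩ := exists_radial u ρ hρ hρL hu huL S (L := L)
    (fun s hs t ht hst => lt_of_not_ge (hsep s hs t ht hst))
  set T1 := 1 / (2 : ℝ) ^ (6 * L) with hT1
  set T2 := (2 : ℝ) ^ L * T1 with hT2
  have hT2e : T2 = 1 / (2 : ℝ) ^ (5 * L) := by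
    rw [hT2, hT1, show 6 * L = L + 5 * L by ring, pow_add]
    field_simp
  have hT21 : T2 ≤ 1 := by
    rw [hT2e, div_le_one (by positivity)]; exact one_le_pow₀ one_le_two
  have hT20 : 0 < T2 := by rw [hT2e]; positivity
  have hσT1 : 4 * σ ≤ T1 := by
    rw [hσ, hT1, mul_one_div, div_le_div_iff₀ (by positivity) (by positivity), one_mul,
      show 7 * L = L + 6 * L by ring, pow_add]
    gcongr
    calc (4 : ℝ) = 2 ^ 2 := by norm_num
      _ ≤ 2 ^ L := pow_le_pow_right₀ one_le_two (by omega)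
  obtain ⟨Ψ, hΨup, hΨnear⟩ := exists_snap ρ hρ hρL S (show 0 < T1 by rw [hT1]; positivity)
    (by omega : 1 ≤ L) hT21 hσT1 hcover ψ (by norm_num : (0 : ℝ) ≤ 108000) hψup
  let E0 : V → Ell p ((Fin (projRank N) ⊕ (Fin 9 × Fin d0)) ⊕ Unit) := fun v =>
    cat (cat (P (x v - x z)) (Ψ v)) (WithLp.toLp _ fun _ => ρ v)
  have hunit : ∀ r : ℝ, ‖(WithLp.toLp _ fun _ => r : Ell p Unit)‖ = |r| := by
    intro r
    rw [norm_eq_rpow]
    simp [Real.rpow_rpow_inv (abs_nonneg r) (show p ≠ 0 by linarith)]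
  let e := (Fintype.equivFin ((Fin (projRank N) ⊕ (Fin 9 × Fin d0)) ⊕ Unit)).toEmbedding
  refine ⟨_, fun v => pad e (E0 v), ?_, fun v w => ?_, fun v => ?_, fun v w hv hw => ?_⟩
  · simp only [Fintype.card_sum, Fintype.card_fin, Fintype.card_prod, Fintype.card_unit]
    push_cast
    unfold cellDim
    linarith
  · rw [pad_sub, norm_pad]
    simp only [E0, cat_sub]
    refine (norm_cat_le _ _).trans ?_
    refine le_trans (add_le_add (norm_cat_le _ _) le_rfl) ?_
    have h1 : ‖P (x v - x z) - P (x w - x z)‖ ≤ dist v w := by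
      rw [← map_sub, sub_sub_sub_cancel_right, hx]; exact hP _
    have h2 : ‖(WithLp.toLp _ fun _ => ρ v : Ell p Unit) - WithLp.toLp _ fun _ => ρ w‖ ≤
        dist v w := by
      rw [← WithLp.toLp_sub]
      exact le_of_eq_of_le (hunit _) (hρL v w)
    have h3 : Real.log (Fintype.card V) / L ≤ Lam := by
      rw [div_le_iff₀ (by exact_mod_cast (show 0 < L by omega))]; exact hLam
    have h4 := hΨup v w
    have h5 : 108000 * (20 + 180 * Real.log (Fintype.card V) / L) * dist v w ≤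
        108000 * (20 + 180 * Lam) * dist v w := by
      refine mul_le_mul_of_nonneg_right (mul_le_mul_of_nonneg_left ?_ (by norm_num)) dist_nonneg
      rw [mul_div_assoc]
      linarith
    unfold cellLip
    linarith
  · rw [norm_pad]
    simp only [E0]
    refine (norm_cat_le _ _).trans (le_trans (add_le_add (norm_cat_le _ _) le_rfl) ?_)
    rw [hunit, abs_of_pos (hρ v)]
    have h1 : ‖P (x v - x z)‖ ≤ dist v z := by rw [hx]; exact hP _
    have h2 := hΨnear v 0 (80000 * ρ v) (by linarith [hρ v]) (fun s hs hd => by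
      rw [sub_zero]
      have h3 : ρ s ≤ 2 * ρ v := by
        have := abs_le.1 (hρL v s)
        have := mul_le_mul_of_nonneg_right hT21 (hρ v).le
        linarith [hd]
      linarith [hψn s hs])
    rw [sub_zero] at h2
    linarith [hρ v]
  · rw [pad_sub, norm_pad]
    simp only [E0, cat_sub, ← map_sub, sub_sub_sub_cancel_right]
    set D := dist v w with hD
    have hD0 : 0 ≤ D := dist_nonneg
    set PΔ := P (x v - x w)
    set RΔ : Ell p Unit := (WithLp.toLp _ fun _ => ρ v) - WithLp.toLp _ fun _ => ρ w with hRΔ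
    set T := ‖cat (cat PΔ (Ψ v - Ψ w)) RΔ‖
    have hTP : ‖PΔ‖ ≤ T := (le_norm_cat_left _ _).trans (le_norm_cat_left _ _)
    have hTΨ : ‖Ψ v - Ψ w‖ ≤ T := (le_norm_cat_right _ _).trans (le_norm_cat_left _ _)
    have hTρ : |ρ v - ρ w| ≤ T := by
      refine le_trans (le_of_eq ?_) (le_norm_cat_right _ _)
      rw [hRΔ, ← WithLp.toLp_sub]
      exact (hunit _).symm
    have hDu : D ≤ 2 * (‖PΔ‖ + ‖u v - u w‖) := by
      have h := hlow (x v - x w)
      rw [← hx] at h
      refine h.trans (le_of_eq ?_)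
      simp only [u, PΔ]
      rw [← map_sub U, sub_sub_sub_cancel_right]
    have hu2 : ‖u v - u w‖ ≤ 30 * ρ v + 30 * ρ w :=
      (norm_sub_le _ _).trans (add_le_add (hu v) (hu w))
    set m := max (ρ v) (ρ w) with hm
    have hmv : ρ v ≤ m := le_max_left _ _
    have hmw : ρ w ≤ m := le_max_right _ _
    rcases le_total (m / 8) |ρ v - ρ w| with hfar | hclose
    · linarith
    obtain ⟨s, hs, hds⟩ := hcover v
    obtain ⟨t, ht, hdt⟩ := hcover w
    have hσsmall : σ ≤ 1 / 1000 := by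
      rw [hσ, div_le_div_iff₀ (by positivity) (by norm_num)]
      have : (2 : ℝ) ^ 10 ≤ 2 ^ (7 * L) := pow_le_pow_right₀ one_le_two (by omega)
      linarith
    have hm0 : 0 < m := (hρ v).trans_le hmv
    have hsv : σ * ρ v ≤ 1 / 1000 * m := mul_le_mul hσsmall hmv (hρ v).le (by norm_num)
    have htw : σ * ρ w ≤ 1 / 1000 * m := mul_le_mul hσsmall hmw (hρ w).le (by norm_num)
    have hρs := abs_le.1 ((hρL v s).trans hds)
    have hρt := abs_le.1 ((hρL w t).trans hdt)
    have hc := abs_le.1 hclose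
    have hcv : 7 / 8 * m ≤ ρ v ∧ 7 / 8 * m ≤ ρ w := by
      rcases le_total (ρ v) (ρ w) with h | h
      · rw [hm, max_eq_right h] at hc ⊢; constructor <;> linarith [hc.1, hρ v]
      · rw [hm, max_eq_left h] at hc ⊢; constructor <;> linarith [hc.2, hρ w]
    have hψlo := hψlow s hs t ht (by linarith [hρs.1, hρs.2, hρt.1, hρt.2, hcv.1, hcv.2])
      (by linarith [hρs.1, hρs.2, hρt.1, hρt.2, hcv.1, hcv.2])
    have hmax : max (ρ s) (ρ t) ≤ 2 * m :=
      max_le (by linarith [hρs.1]) (by linarith [hρt.1])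
    have hσT2 : σ ≤ T2 := by
      rw [hT2e, hσ]
      exact one_div_le_one_div_of_le (by positivity) (pow_le_pow_right₀ one_le_two (by omega))
    have e1 : ‖Ψ v - ψ s‖ ≤ 216000 * (T2 * m) := by
      refine hΨnear v (ψ s) _ (by positivity) fun s' hs' hd' => ?_
      refine (hψup s' hs' s hs).trans ?_
      have h1 : dist s' s ≤ T2 * ρ v + σ * ρ v := by
        linarith [dist_triangle s' v s, dist_comm s' v]
      have h2 : T2 * ρ v ≤ T2 * m := mul_le_mul_of_nonneg_left hmv hT20.le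
      have h3 : σ * ρ v ≤ T2 * m := mul_le_mul hσT2 hmv (hρ v).le hT20.le
      linarith
    have e2 : ‖Ψ w - ψ t‖ ≤ 216000 * (T2 * m) := by
      refine hΨnear w (ψ t) _ (by positivity) fun s' hs' hd' => ?_
      refine (hψup s' hs' t ht).trans ?_
      have h1 : dist s' t ≤ T2 * ρ w + σ * ρ w := by
        linarith [dist_triangle s' w t, dist_comm s' w]
      have h2 : T2 * ρ w ≤ T2 * m := mul_le_mul_of_nonneg_left hmw hT20.le
      have h3 : σ * ρ w ≤ T2 * m := mul_le_mul hσT2 hmw (hρ w).le hT20.le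
      linarith
    have e3 : ‖ψ s - ψ t‖ ≤ T + 432000 * (T2 * m) := by
      have := norm_sub_le_norm_sub_add_norm_sub (ψ s) (Ψ v) (ψ t)
      have := norm_sub_le_norm_sub_add_norm_sub (Ψ v) (Ψ w) (ψ t)
      rw [norm_sub_rev (ψ s) (Ψ v)] at *
      linarith
    have e4 : ‖u v - u w‖ ≤ ‖u s - u t‖ + 6 * (T2 * m) := by
      have h1 := norm_sub_le_norm_sub_add_norm_sub (u v) (u s) (u w)
      have h2 := norm_sub_le_norm_sub_add_norm_sub (u s) (u t) (u w)
      have h3 := huL v s
      have h4 := huL t w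
      rw [dist_comm t w] at h4
      have h5 : σ * ρ v ≤ T2 * m := mul_le_mul hσT2 hmv (hρ v).le hT20.le
      have h6 : σ * ρ w ≤ T2 * m := mul_le_mul hσT2 hmw (hρ w).le hT20.le
      linarith
    have e5 : σ * max (ρ s) (ρ t) ≤ T2 * (2 * m) :=
      mul_le_mul hσT2 hmax ((hρ s).le.trans (le_max_left _ _)) hT20.le
    have e6 : 100000000 * (T2 * m) ≤ D := by
      have h1 : m ≤ (2 : ℝ) ^ (3 * L) * D := max_le hv hw
      calc 100000000 * (T2 * m) ≤ 100000000 * (T2 * ((2 : ℝ) ^ (3 * L) * D)) := by gcongr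
        _ = 100000000 / (2 : ℝ) ^ (2 * L) * D := by
            rw [hT2e, show 5 * L = 2 * L + 3 * L by ring, pow_add]
            field_simp
        _ ≤ 1 * D := by
            refine mul_le_mul_of_nonneg_right ?_ hD0
            rw [div_le_one (by positivity)]
            calc (100000000 : ℝ) ≤ 2 ^ 30 := by norm_num
              _ ≤ 2 ^ (2 * L) := pow_le_pow_right₀ one_le_two (by omega)
        _ = D := one_mul D
    linarith

end Vale.Agent.P249.Sub
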