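import Vale.Agent.P249.Sub.Glue
import Vale.Agent.P249.Sampling

/-!
The multi-stage embedding of a finite set.
-/

namespace Vale.Agent.P249.Sub

open Finset

section radius

variable {V : Type*} [Fintype V] [MetricSpace V]

/-- Number of points in a closed ball. -/
noncomputable def ballCount (v : V) (r : ℝ) : ℕ := (Finset.univ.filter fun y => dist v y ≤ r).card

lemma ballCount_mono (v : V) {r r' : ℝ} (h : r ≤ r') : ballCount v r ≤ ballCount v r' :=
  Finset.card_le_card fun y hy => by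
    simp only [Finset.mem_filter, Finset.mem_univ, true_and] at hy ⊢
    linarith

/-- For every `2 ≤ m ≤ n`, a positive 1-Lipschitz radius that exactly captures `m` points. -/
lemma exists_radius {m : ℕ} (h2 : 2 ≤ m) (hm : m ≤ Fintype.card V) :
    ∃ r : V → ℝ, (∀ v, 0 < r v) ∧ (∀ v w, |r v - r w| ≤ dist v w) ∧
      (∀ v, m ≤ ballCount v (r v)) ∧ ∀ v s, s < r v → ballCount v s < m := by
  classical
  have hex : ∀ v : V, ∃ r : ℝ, 0 < r ∧ m ≤ ballCount v r ∧ ∀ s, m ≤ ballCount v s → r ≤ s := by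
    intro v
    set T := (Finset.univ.image (dist v)).filter fun t => m ≤ ballCount v t with hT
    have hsel : ∀ s, m ≤ ballCount v s → ∃ t ∈ T, t ≤ s := by
      intro s hs
      set B := Finset.univ.filter fun y => dist v y ≤ s with hB
      have hne : B.Nonempty := Finset.card_pos.1 (lt_of_lt_of_le (by omega : 0 < m) hs)
      obtain ⟨y, hy, hmax⟩ := B.exists_max_image (dist v) hne
      simp only [hB, Finset.mem_filter, Finset.mem_univ, true_and] at hy hmax
      refine ⟨dist v y, Finset.mem_filter.2 ⟨Finset.mem_image_of_mem _ (Finset.mem_univ y), ?_⟩, hy⟩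
      refine hs.trans (Finset.card_le_card fun z hz => ?_)
      simp only [Finset.mem_filter, Finset.mem_univ, true_and] at hz ⊢
      exact hmax z hz
    obtain ⟨D, hD⟩ : ∃ D, ∀ y, dist v y ≤ D :=
      ⟨∑ y, dist v y, fun y => Finset.single_le_sum (f := fun y => dist v y) (fun z _ => dist_nonneg)
        (Finset.mem_univ y)⟩
    have hfull : m ≤ ballCount v D := by
      rw [ballCount, Finset.filter_true_of_mem fun y _ => hD y, Finset.card_univ]; exact hm
    obtain ⟨t0, ht0, -⟩ := hsel D hfull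
    have hne : T.Nonempty := ⟨t0, ht0⟩
    refine ⟨T.min' hne, ?_, (Finset.mem_filter.1 (T.min'_mem hne)).2, fun s hs => ?_⟩
    · rcases lt_or_ge 0 (T.min' hne) with h | h
      · exact h
      exfalso
      have h1 := (Finset.mem_filter.1 (T.min'_mem hne)).2
      have h3 : ballCount v (T.min' hne) ≤ 1 := by
        refine le_trans (Finset.card_le_card (t := {v}) fun y hy => ?_) (by simp)
        simp only [Finset.mem_filter, Finset.mem_univ, true_and] at hy
        rw [Finset.mem_singleton]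
        exact (dist_le_zero.1 (hy.trans h)).symm
      omega
    · obtain ⟨t, ht, hts⟩ := hsel s hs
      exact (T.min'_le t ht).trans hts
  choose r hr0 hrm hrle using hex
  have hlip : ∀ v w, r w ≤ r v + dist v w := fun v w =>
    hrle w _ ((hrm v).trans (Finset.card_le_card fun y hy => by
      simp only [Finset.mem_filter, Finset.mem_univ, true_and] at hy ⊢
      linarith [dist_triangle w v y, dist_comm w v]))
  refine ⟨r, hr0, fun v w => ?_, hrm, fun v s hs => ?_⟩
  · rw [abs_le]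
    constructor <;> linarith [hlip v w, hlip w v, dist_comm v w]
  · by_contra h
    push Not at h
    exact absurd (hrle v s h) (not_le.2 hs)

end radius

variable {p : ℝ} [hp : Fact (1 ≤ ENNReal.ofReal p)]

/-- The dimension used by one middle stage. -/
noncomputable def stageDim (p : ℝ) (L N n : ℕ) : ℕ := ⌊cellDim p L N n⌋₊

/-- The dimension used by the bottom stage on cells of `m` points. -/
noncomputable def bottomDim (p : ℝ) (m n : ℕ) : ℕ :=
  ⌊32 * (m : ℝ) * ((2 * (Nat.log 2 n + 1) + 1 : ℕ) : ℝ) ^ p * Real.log (3 * (n : ℝ) ^ 2)⌋₊ + 1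

/-- One middle stage. -/
lemma exists_stage {V I : Type*} [Fintype V] [MetricSpace V] [Fintype I] (x : V → Ell p I)
    (hx : ∀ v w, dist v w = ‖x v - x w‖) (r0 r1 : V → ℝ) (hr0 : ∀ v, 0 < r0 v)
    (hr0L : ∀ v w, |r0 v - r0 w| ≤ dist v w) (hr1 : ∀ v, 0 < r1 v)
    (hr1L : ∀ v w, |r1 v - r1 w| ≤ dist v w) {m0 m1 N : ℕ} (hm1 : 0 < m1) (hN : m0 ≤ N * m1)
    (hc0 : ∀ v s, s < r0 v → ballCount v s ≤ m0) (hc1 : ∀ v, m1 ≤ ballCount v (r1 v))
    {L Lam : ℕ} (hL : 16 ≤ L) (hLam : 1 ≤ Lam) (hn : Fintype.card V ≤ 2 ^ (Lam * L)) :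
    ∃ (d : ℕ) (G : V → Ell p (Fin d)),
      d ≤ (L + 10) * 2 ^ (10 * Lam) * stageDim p L N (Fintype.card V) ∧
      (∀ v w, ‖G v - G w‖ ≤ 6 * cellLip Lam * dist v w) ∧
      ∀ v w, r1 v + r1 w ≤ 2 ^ (3 * L) * dist v w → 2 ^ (3 * L) * dist v w ≤ 3 * r0 v →
        2 ^ (3 * L) * dist v w ≤ 3 * r0 w →
        dist v w ≤ 6 * 2 ^ (10 * Lam) * 5000 * ‖G v - G w‖ := by
  classical
  have hlip : (90004 : ℝ) ≤ cellLip Lam := by
    unfold cellLip
    have : (0 : ℝ) ≤ Lam := Nat.cast_nonneg _
    linarith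
  refine exists_glue (p := p) r0 hr0 hr0L hL hLam hn (by linarith : (0 : ℝ) ≤ cellLip Lam)
    (by norm_num : (0 : ℝ) < 5000) (fun v w => r1 v + r1 w ≤ 2 ^ (3 * L) * dist v w)
    fun R z hR => ?_
  by_cases hne : ∃ v0, InCell r0 L R z v0
  swap
  · push Not at hne
    exact ⟨fun _ => 0, fun v h => absurd h (hne v), fun v w h _ => absurd h (hne v),
      fun v w h _ _ => absurd h (hne v)⟩
  obtain ⟨v0, hv0⟩ := hne
  set W := {v : V // InCell r0 L R z v ∨ v = z} with hW
  have hWdist : ∀ v : W, dist v.1 z < 4 * R := fun v => by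
    rcases v.2 with h | h
    · exact h.1
    · rw [h, dist_self]; linarith
  let zW : W := ⟨z, Or.inr rfl⟩
  have hcount : (Finset.univ.filter fun y => dist z y ≤ 6 * R).card ≤ m0 := by
    refine le_trans (Finset.card_le_card fun y hy => ?_) (hc0 v0 (10 * R) ?_)
    · simp only [Finset.mem_filter, Finset.mem_univ, true_and] at hy ⊢
      linarith [dist_triangle v0 z y, hv0.1]
    · have h1 : (2 : ℝ) ^ 16 ≤ 2 ^ L := pow_le_pow_right₀ one_le_two hL
      have := mul_le_mul_of_nonneg_right h1 hR.le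
      linarith [hv0.2]
  obtain ⟨A', hA'sub, hA'sep, hA'cov⟩ := exists_greedy
    ((Finset.univ : Finset W).filter fun v => r1 v.1 ≤ R) (fun v => r1 v.1)
    (fun a b => dist a b ≤ r1 a.1 + r1 b.1) (fun a b h => by rw [dist_comm, add_comm]; exact h)
  have hA'card : A'.card ≤ N := by
    refine Nat.le_of_mul_le_mul_right ?_ hm1
    refine le_trans ?_ (hcount.trans hN)
    have hdisj : ((A' : Finset W) : Set W).PairwiseDisjoint
        fun v => Finset.univ.filter fun y : V => dist v.1 y ≤ r1 v.1 := by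
      intro a ha b hb hab
      refine Finset.disjoint_left.2 fun y hy hy' => hA'sep a ha b hb hab ?_
      simp only [Finset.mem_filter, Finset.mem_univ, true_and] at hy hy'
      rw [Subtype.dist_eq]
      linarith [dist_triangle_right a.1 b.1 y]
    calc A'.card * m1 = ∑ _v ∈ A', m1 := by simp
      _ ≤ ∑ v ∈ A', (Finset.univ.filter fun y : V => dist v.1 y ≤ r1 v.1).card :=
          Finset.sum_le_sum fun v _ => hc1 v.1
      _ = (A'.biUnion fun v => Finset.univ.filter fun y : V => dist v.1 y ≤ r1 v.1).card :=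
          (Finset.card_biUnion hdisj).symm
      _ ≤ _ := by
          refine Finset.card_le_card fun y hy => ?_
          simp only [Finset.mem_biUnion, Finset.mem_filter, Finset.mem_univ, true_and] at hy ⊢
          obtain ⟨v, hv, hvy⟩ := hy
          have h1 := (Finset.mem_filter.1 (hA'sub hv)).2
          linarith [dist_triangle z v.1 y, hWdist v, dist_comm z v.1]
  have hlog : Real.log (Fintype.card W) ≤ (Lam : ℝ) * L := by
    have h1 : (Fintype.card W : ℝ) ≤ (2 : ℝ) ^ (Lam * L) := by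
      exact_mod_cast (Fintype.card_subtype_le _).trans hn
    refine (Real.log_le_log (Nat.cast_pos.2 (Fintype.card_pos_iff.2 ⟨zW⟩)) h1).trans ?_
    rw [Real.log_pow]
    push_cast
    have h2 : Real.log 2 ≤ 1 := by linarith [Real.log_two_lt_d9]
    exact mul_le_of_le_one_right (by positivity) h2
  obtain ⟨d, E, hd, hEu, hEn, hEl⟩ := exists_cell (fun v : W => x v.1)
    (fun v w => by rw [Subtype.dist_eq]; exact hx _ _) (insert zW A') (Finset.mem_insert_self _ _)
    (N := N) ((Finset.card_insert_le _ _).trans (by omega)) (fun v => min (r1 v.1) R)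
    (fun v => lt_min (hr1 _) hR)
    (fun v w => (abs_min_sub_min_le_max _ _ _ _).trans
      (max_le (hr1L _ _) (by simp [dist_nonneg])))
    (fun v => by
      rcases le_total (r1 v.1) R with h | h
      · obtain ⟨a, ha, hk, hor⟩ := hA'cov v (Finset.mem_filter.2 ⟨Finset.mem_univ v, h⟩)
        refine ⟨a, Finset.mem_insert_of_mem ha, ?_⟩
        rw [min_eq_left h]
        rcases hor with h' | h'
        · rw [h', dist_self]; linarith [hr1 v.1]
        · linarith [hr1 v.1]
      · refine ⟨zW, Finset.mem_insert_self _ _, ?_⟩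
        rw [min_eq_right h, Subtype.dist_eq]
        linarith [hWdist v])
    (by omega : 15 ≤ L) hlog
  have hdle : d ≤ stageDim p L N (Fintype.card V) := by
    refine Nat.le_floor (hd.trans ?_)
    unfold cellDim radialDim
    have := liftConst_pos p
    gcongr
    exact Fintype.card_subtype_le _
  refine ⟨fun v => if h : InCell r0 L R z v then pad (Fin.castLEEmb hdle) (E ⟨v, Or.inl h⟩) else 0,
    fun v hv => ?_, fun v w hv hw => ?_, fun v w hv hw hg => ?_⟩
  · simp only [dif_pos hv]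
    rw [norm_pad]
    refine (hEn _).trans ?_
    have h1 := mul_le_mul_of_nonneg_right hlip hR.le
    have h2 := min_le_right (r1 v) R
    have h3 : dist (⟨v, Or.inl hv⟩ : W) zW < 4 * R := hv.1
    linarith
  · simp only [dif_pos hv, dif_pos hw]
    rw [pad_sub, norm_pad]
    exact hEu _ _
  · simp only [dif_pos hv, dif_pos hw]
    rw [pad_sub, norm_pad]
    refine hEl ⟨v, Or.inl hv⟩ ⟨w, Or.inl hw⟩ ?_ ?_
    · exact (min_le_left _ _).trans (le_trans (by linarith [hr1 w]) hg)
    · exact (min_le_left _ _).trans (le_trans (by linarith [hr1 v]) hg)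

/-- The bottom stage. -/
lemma exists_bottom {V I : Type*} [Fintype V] [MetricSpace V] [Fintype I] (x : V → Ell p I)
    (hx : ∀ v w, dist v w = ‖x v - x w‖) (r0 : V → ℝ) (hr0 : ∀ v, 0 < r0 v)
    (hr0L : ∀ v w, |r0 v - r0 w| ≤ dist v w) {m0 : ℕ}
    (hc0 : ∀ v s, s < r0 v → ballCount v s ≤ m0)
    {L Lam : ℕ} (hL : 16 ≤ L) (hLam : 1 ≤ Lam) (hn : Fintype.card V ≤ 2 ^ (Lam * L)) :
    ∃ (d : ℕ) (G : V → Ell p (Fin d)),
      d ≤ (L + 10) * 2 ^ (10 * Lam) * bottomDim p m0 (Fintype.card V) ∧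
      (∀ v w, ‖G v - G w‖ ≤ 6 * 8 * dist v w) ∧
      ∀ v w, 2 ^ (3 * L) * dist v w ≤ 3 * r0 v → 2 ^ (3 * L) * dist v w ≤ 3 * r0 w →
        dist v w ≤ 6 * 2 ^ (10 * Lam) * 2 * ‖G v - G w‖ := by
  classical
  have hp1 : 1 ≤ p := one_le_p
  have hp0 : 0 < p := by linarith
  refine Exists.elim (exists_glue (p := p)
    (dE := bottomDim p m0 (Fintype.card V)) r0 hr0 hr0L hL hLam hn
    (by norm_num : (0 : ℝ) ≤ 8) (by norm_num : (0 : ℝ) < 2) (fun _ _ => True) fun R z hR => ?_)
    fun d ⟨G, hd, hu, hl⟩ => ⟨d, G, hd, hu, fun v w hv hw => hl v w trivial hv hw⟩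
  by_cases hne : ∃ v0, InCell r0 L R z v0
  swap
  · push Not at hne
    exact ⟨fun _ => 0, fun v h => absurd h (hne v), fun v w h _ => absurd h (hne v),
      fun v w h _ _ => absurd h (hne v)⟩
  obtain ⟨v0, hv0⟩ := hne
  set W := {v : V // InCell r0 L R z v ∨ v = z} with hW
  by_cases hcard : Fintype.card W ≤ 1
  · refine ⟨fun _ => 0, fun v _ => by simp; linarith, fun v w _ _ => by simp,
      fun v w hv hw _ => ?_⟩
    have : (⟨v, Or.inl hv⟩ : W) = ⟨w, Or.inl hw⟩ := Fintype.card_le_one_iff.1 hcard _ _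
    have h' : v = w := congrArg Subtype.val this
    simp [h']
  push Not at hcard
  have hWm : Fintype.card W ≤ m0 := by
    refine le_trans ?_ (hc0 v0 (10 * R) ?_)
    · rw [← Finset.card_univ, ← Finset.card_map (Function.Embedding.subtype _)]
      refine Finset.card_le_card fun y hy => ?_
      simp only [Finset.mem_map, Finset.mem_univ, true_and] at hy
      obtain ⟨⟨y, hy'⟩, rfl⟩ := hy
      simp only [Finset.mem_filter, Finset.mem_univ, true_and, Function.Embedding.coe_subtype]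
      rcases hy' with h | h
      · linarith [dist_triangle_right v0 y z, hv0.1, h.1]
      · rw [h]; linarith [hv0.1]
    · have h1 : (2 : ℝ) ^ 16 ≤ 2 ^ L := pow_le_pow_right₀ one_le_two hL
      have := mul_le_mul_of_nonneg_right h1 hR.le
      linarith [hv0.2]
  have hS : ∀ v w : W, ∑ i, (1 : ℝ) * |x v.1 i - x w.1 i| ^ p = dist v.1 w.1 ^ p := fun v w => by
    rw [hx, norm_rpow_eq]; simp [PiLp.sub_apply]
  set n := Fintype.card V with hn'
  have hkn : Fintype.card W < 2 ^ (Nat.log 2 n + 1) :=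
    lt_of_le_of_lt (Fintype.card_subtype_le _) (Nat.lt_pow_succ_log_self one_lt_two n)
  obtain ⟨F, hF⟩ := finite_reduction (p := p) (η := 1 / 2) hp1 (by norm_num) (by norm_num)
    (fun _ : I => (1 : ℝ)) (fun _ => zero_le_one) (fun (v : W) i => x v.1 i)
    (fun v w hvw => by
      rw [hS]
      exact Real.rpow_pos_of_pos (dist_pos.2 fun h => hvw (Subtype.ext h)) p)
    hkn hcard (d := bottomDim p m0 n) (by
      have hWn : Fintype.card W ≤ n := Fintype.card_subtype_le _
      have hWpos : (2 : ℝ) ≤ (Fintype.card W : ℝ) := by exact_mod_cast hcard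
      set T := ((2 * (Nat.log 2 n + 1) + 1 : ℕ) : ℝ) with hT
      have hT0 : 0 ≤ T := Nat.cast_nonneg _
      have hlog : Real.log (3 * (Fintype.card W : ℝ) ^ 2) ≤ Real.log (3 * (n : ℝ) ^ 2) := by
        refine Real.log_le_log (by positivity) ?_
        gcongr
      have hlog0 : 0 ≤ Real.log (3 * (Fintype.card W : ℝ) ^ 2) := Real.log_nonneg (by nlinarith)
      calc 8 * (Fintype.card W : ℝ) * T ^ p / (1 / 2) ^ 2 *
            Real.log (3 * (Fintype.card W : ℝ) ^ 2)
          ≤ 8 * (m0 : ℝ) * T ^ p / (1 / 2) ^ 2 * Real.log (3 * (n : ℝ) ^ 2) := by gcongr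
        _ = 32 * (m0 : ℝ) * T ^ p * Real.log (3 * (n : ℝ) ^ 2) := by ring
        _ < _ := by
            rw [bottomDim, hT]
            push_cast
            exact Nat.lt_floor_add_one _)
  let zW : W := ⟨z, Or.inr rfl⟩
  have hb : ∀ v w : W, ‖(WithLp.toLp _ (F v) : Ell p _) - WithLp.toLp _ (F w)‖ ≤
        2 * dist v.1 w.1 ∧
      dist v.1 w.1 / 2 ≤ ‖(WithLp.toLp _ (F v) : Ell p _) - WithLp.toLp _ (F w)‖ := by
    intro v w
    obtain ⟨h1, h2⟩ := hF v w
    rw [hS] at h1 h2
    have hD : 0 ≤ dist v.1 w.1 := dist_nonneg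
    have hX : 0 ≤ dist v.1 w.1 ^ p := Real.rpow_nonneg hD _
    have he : ‖(WithLp.toLp _ (F v) : Ell p _) - WithLp.toLp _ (F w)‖ ^ p =
        ∑ j, |F v j - F w j| ^ p := by
      rw [norm_rpow_eq]; simp
    constructor
    · refine (Real.rpow_le_rpow_iff (norm_nonneg _) (by positivity) hp0).1 ?_
      rw [he, Real.mul_rpow (by norm_num) hD]
      have h3 : (2 : ℝ) ≤ 2 ^ p := Real.self_le_rpow_of_one_le (by norm_num) hp1
      have := mul_le_mul_of_nonneg_right h3 hX
      linarith
    · refine (Real.rpow_le_rpow_iff (by positivity) (norm_nonneg _) hp0).1 ?_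
      rw [he, Real.div_rpow hD (by norm_num)]
      have h3 : (2 : ℝ) ≤ 2 ^ p := Real.self_le_rpow_of_one_le (by norm_num) hp1
      have := div_le_div_of_nonneg_left hX two_pos h3
      linarith
  refine ⟨fun v => if h : InCell r0 L R z v then
    (WithLp.toLp _ (F ⟨v, Or.inl h⟩) : Ell p _) - WithLp.toLp _ (F zW) else 0,
    fun v hv => ?_, fun v w hv hw => ?_, fun v w hv hw _ => ?_⟩
  · simp only [dif_pos hv]
    have h1 := (hb ⟨v, Or.inl hv⟩ zW).1
    have h2 := hv.1
    change ‖_‖ ≤ 2 * dist v z at h1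
    linarith
  · simp only [dif_pos hv, dif_pos hw, sub_sub_sub_cancel_right]
    have h1 := (hb ⟨v, Or.inl hv⟩ ⟨w, Or.inl hw⟩).1
    have : 0 ≤ dist v w := dist_nonneg
    change ‖_‖ ≤ 2 * dist v w at h1
    linarith
  · simp only [dif_pos hv, dif_pos hw, sub_sub_sub_cancel_right]
    have h1 := (hb ⟨v, Or.inl hv⟩ ⟨w, Or.inl hw⟩).2
    change dist v w / 2 ≤ ‖_‖ at h1
    linarith

/-- Cell sizes: `⌈n / N^k⌉`. -/
def cellSize (n N k : ℕ) : ℕ := (n + N ^ k - 1) / N ^ k

lemma cellSize_zero (n N : ℕ) : cellSize n N 0 = n := by simp [cellSize]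

lemma cellSize_le {n N k : ℕ} (hN : 1 ≤ N) : cellSize n N k ≤ n / N ^ k + 1 := by
  have hP : 0 < N ^ k := pow_pos hN k
  rw [cellSize, ← Nat.add_div_right n hP]
  exact Nat.div_le_div_right (Nat.sub_le _ _)

lemma le_mul_cellSize {n N k : ℕ} (hN : 1 ≤ N) : n ≤ cellSize n N k * N ^ k := by
  have hP : 0 < N ^ k := pow_pos hN k
  have h := Nat.lt_div_mul_add (a := n + N ^ k - 1) hP
  rw [cellSize]
  omega

lemma cellSize_step {n N k : ℕ} (hN : 1 ≤ N) :
    cellSize n N k ≤ N * cellSize n N (k + 1) := by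
  have hP : 0 < N ^ k := pow_pos hN k
  have h := le_mul_cellSize (n := n) (k := k + 1) hN
  rw [pow_succ] at h
  rw [cellSize, Nat.div_le_iff_le_mul hP]
  have : cellSize n N (k + 1) * (N ^ k * N) = N * cellSize n N (k + 1) * N ^ k := by ring
  simp only [cellSize] at h this ⊢
  omega

/-- Distortion of the multi-stage embedding. -/
noncomputable def totalDist (Lam q : ℕ) : ℝ :=
  30000 * 2 ^ (10 * Lam) * (6 * q * cellLip Lam + 48)

/-- The multi-stage embedding. -/
theorem exists_embedding {V I : Type*} [Fintype V] [MetricSpace V] [Fintype I] (x : V → Ell p I)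
    (hx : ∀ v w, dist v w = ‖x v - x w‖) {L Lam N q : ℕ} (hL : 16 ≤ L) (hLam : 1 ≤ Lam)
    (hn : Fintype.card V ≤ 2 ^ (Lam * L)) (hN : 1 ≤ N) (hnq : 2 * N ^ q ≤ Fintype.card V) :
    ∃ (d : ℕ) (f : V → Ell p (Fin d)),
      d ≤ q * ((L + 10) * 2 ^ (10 * Lam) * stageDim p L N (Fintype.card V)) +
        (L + 10) * 2 ^ (10 * Lam) *
          bottomDim p (cellSize (Fintype.card V) N q) (Fintype.card V) ∧
      ∀ v w, 1 / (30000 * 2 ^ (10 * Lam)) * dist v w ≤ ‖f v - f w‖ ∧
        ‖f v - f w‖ ≤ totalDist Lam q * (1 / (30000 * 2 ^ (10 * Lam))) * dist v w := by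
  classical
  set n := Fintype.card V with hn'
  have h2 : ∀ k ≤ q, 2 ≤ cellSize n N k ∧ cellSize n N k ≤ n := by
    intro k hk
    have hP : 0 < N ^ k := pow_pos hN k
    constructor
    · rw [cellSize, Nat.le_div_iff_mul_le hP]
      have : N ^ k ≤ N ^ q := Nat.pow_le_pow_right hN hk
      omega
    · rw [cellSize, Nat.div_le_iff_le_mul hP]
      have : n ≤ n * N ^ k := Nat.le_mul_of_pos_right n hP
      omega
  set Diam := ∑ v, ∑ w, dist v (w : V) with hDiam
  have hDiam0 : ∀ v w : V, dist v w ≤ Diam := fun v w =>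
    le_trans (Finset.single_le_sum (f := fun w => dist v w) (fun w _ => dist_nonneg)
      (Finset.mem_univ w)) (Finset.single_le_sum (f := fun v => ∑ w, dist v w)
      (fun v _ => Finset.sum_nonneg fun w _ => dist_nonneg) (Finset.mem_univ v))
  have hDiam1 : 0 ≤ Diam := Finset.sum_nonneg fun v _ => Finset.sum_nonneg fun w _ => dist_nonneg
  have hrad : ∀ k : ℕ, ∃ r : V → ℝ, (∀ v, 0 < r v) ∧ (∀ v w, |r v - r w| ≤ dist v w) ∧
      (k ≤ q → ∀ v s, s < r v → ballCount v s ≤ cellSize n N k) ∧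
      (1 ≤ k → k ≤ q → ∀ v, cellSize n N k ≤ ballCount v (r v)) ∧
      (k = 0 → ∀ v, r v = 2 ^ (4 * L) * (Diam + 1)) := by
    intro k
    rcases Nat.eq_zero_or_pos k with rfl | hk
    · refine ⟨fun _ => 2 ^ (4 * L) * (Diam + 1), fun v => by positivity,
        fun v w => by simp, fun _ v s _ => ?_, fun h => absurd h (by omega), fun _ v => rfl⟩
      rw [cellSize_zero]; exact Finset.card_le_univ _
    · by_cases hkq : k ≤ q
      · obtain ⟨r, h1, h3, h4, h5⟩ := exists_radius (V := V) (h2 k hkq).1 (h2 k hkq).2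
        exact ⟨r, h1, h3, fun _ v s hs => (h5 v s hs).le, fun _ _ => h4, fun h => by omega⟩
      · exact ⟨fun _ => 1, fun _ => one_pos, fun v w => by simp, fun h => absurd h hkq,
          fun _ h => absurd h hkq, fun h => by omega⟩
  choose r hr0 hrL hrlow hrhigh hrzero using hrad
  have hstage : ∀ k : Fin q, _ := fun k => exists_stage x hx (r (k : ℕ)) (r ((k : ℕ) + 1))
    (hr0 _) (hrL _) (hr0 _) (hrL _) (m0 := cellSize n N (k : ℕ))
    (m1 := cellSize n N ((k : ℕ) + 1)) (N := N)
    (lt_of_lt_of_le two_pos (h2 _ k.isLt).1) (cellSize_step hN) (hrlow _ k.isLt.le)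
    (hrhigh _ (by omega) k.isLt) hL hLam hn
  choose dS GS hdS hGSu hGSl using hstage
  obtain ⟨dB, GB, hdB, hGBu, hGBl⟩ := exists_bottom x hx (r q) (hr0 _) (hrL _)
    (hrlow q le_rfl) hL hLam hn
  set dmax := (L + 10) * 2 ^ (10 * Lam) * stageDim p L N n with hdmax
  let f0 : V → Ell p ((Fin q × Fin dmax) ⊕ Fin dB) := fun v =>
    cat (WithLp.toLp _ fun ki => pad (Fin.castLEEmb (hdS ki.1)) (GS ki.1 v) ki.2) (GB v)
  obtain ⟨e⟩ : Nonempty ((Fin q × Fin dmax) ⊕ Fin dB ≃ Fin (q * dmax + dB)) :=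
    ⟨Fintype.equivFinOfCardEq (by simp)⟩
  refine ⟨q * dmax + dB, fun v => pad e.toEmbedding (f0 v), Nat.add_le_add_left hdB _,
    fun v w => ?_⟩
  rw [pad_sub, norm_pad]
  simp only [f0, cat_sub]
  have hp1 : 1 ≤ p := one_le_p
  set D := dist v w with hD
  have hD0 : 0 ≤ D := dist_nonneg
  set S : Ell p (Fin q × Fin dmax) :=
    (WithLp.toLp _ fun ki => pad (Fin.castLEEmb (hdS ki.1)) (GS ki.1 v) ki.2) -
      WithLp.toLp _ fun ki => pad (Fin.castLEEmb (hdS ki.1)) (GS ki.1 w) ki.2 with hS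
  have hSp : ‖S‖ ^ p = ∑ k, ‖GS k v - GS k w‖ ^ p := by
    rw [norm_rpow_eq, Fintype.sum_prod_type]
    refine Finset.sum_congr rfl fun k _ => ?_
    rw [← norm_pad (Fin.castLEEmb (hdS k)) (GS k v - GS k w), ← pad_sub, norm_rpow_eq]
    simp [hS]
  set M : ℝ := 2 ^ (10 * Lam) with hM
  have hMpos : 1 ≤ M := one_le_pow₀ one_le_two
  constructor
  · rw [one_div, inv_mul_le_iff₀ (by positivity)]
    rcases eq_or_ne v w with rfl | hvw
    · rw [hD, dist_self]; positivity
    by_cases hgood : ∃ k : Fin q, r ((k : ℕ) + 1) v + r ((k : ℕ) + 1) w ≤ 2 ^ (3 * L) * D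
    · set K := (Finset.univ.filter fun k : Fin q =>
        r ((k : ℕ) + 1) v + r ((k : ℕ) + 1) w ≤ 2 ^ (3 * L) * D) with hK
      have hKne : K.Nonempty := by
        obtain ⟨k, hk⟩ := hgood; exact ⟨k, Finset.mem_filter.2 ⟨Finset.mem_univ k, hk⟩⟩
      set k := K.min' hKne with hkdef
      have hk := (Finset.mem_filter.1 (K.min'_mem hKne)).2
      rw [← hkdef] at hk
      have hprev : 2 ^ (3 * L) * D ≤ 3 * r (k : ℕ) v ∧ 2 ^ (3 * L) * D ≤ 3 * r (k : ℕ) w := by
        rcases Nat.eq_zero_or_pos (k : ℕ) with h0 | h0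
        · rw [h0, hrzero 0 rfl v, hrzero 0 rfl w, and_self]
          have h1 : (2 : ℝ) ^ (3 * L) * D ≤ 2 ^ (4 * L) * (Diam + 1) :=
            mul_le_mul (pow_le_pow_right₀ one_le_two (by omega))
              (by linarith [hDiam0 v w]) hD0 (by positivity)
          have : 0 ≤ 2 ^ (4 * L) * (Diam + 1) := by positivity
          linarith
        · have hnot : ¬ r (k : ℕ) v + r (k : ℕ) w ≤ 2 ^ (3 * L) * D := by
            intro hle
            have hmem : (⟨(k : ℕ) - 1, by omega⟩ : Fin q) ∈ K := by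
              refine Finset.mem_filter.2 ⟨Finset.mem_univ _, ?_⟩
              simp only [Nat.sub_add_cancel h0]
              exact hle
            have hmin := K.min'_le _ hmem
            rw [← hkdef, Fin.le_def] at hmin
            simp at hmin
            omega
          push Not at hnot
          have h3 : (2 : ℝ) ^ 2 ≤ 2 ^ (3 * L) := pow_le_pow_right₀ one_le_two (by omega)
          have := mul_le_mul_of_nonneg_right h3 hD0
          have habs := abs_le.1 (hrL (k : ℕ) v w)
          constructor <;> linarith [habs.1, habs.2]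
      refine (hGSl k v w hk hprev.1 hprev.2).trans ?_
      have hle : ‖GS k v - GS k w‖ ≤ ‖cat S (GB v - GB w)‖ := by
        refine le_trans ?_ (le_norm_cat_left _ _)
        refine le_norm_of_le_rpow _ (norm_nonneg _) ?_
        rw [← norm_rpow_eq, hSp]
        exact Finset.single_le_sum (f := fun k => ‖GS k v - GS k w‖ ^ p)
          (fun k _ => Real.rpow_nonneg (norm_nonneg _) _) (Finset.mem_univ k)
      calc 6 * M * 5000 * ‖GS k v - GS k w‖ ≤ 6 * M * 5000 * ‖cat S (GB v - GB w)‖ :=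
            mul_le_mul_of_nonneg_left hle (by linarith)
        _ = 30000 * M * ‖cat S (GB v - GB w)‖ := by ring
    · push Not at hgood
      have hprev : 2 ^ (3 * L) * D ≤ 3 * r q v ∧ 2 ^ (3 * L) * D ≤ 3 * r q w := by
        rcases Nat.eq_zero_or_pos q with h0 | h0
        · rw [h0, hrzero 0 rfl v, hrzero 0 rfl w, and_self]
          have h1 : (2 : ℝ) ^ (3 * L) * D ≤ 2 ^ (4 * L) * (Diam + 1) :=
            mul_le_mul (pow_le_pow_right₀ one_le_two (by omega))
              (by linarith [hDiam0 v w]) hD0 (by positivity)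
          have : 0 ≤ 2 ^ (4 * L) * (Diam + 1) := by positivity
          linarith
        · have := hgood ⟨q - 1, by omega⟩
          simp only [Nat.sub_add_cancel h0] at this
          have h3 : (2 : ℝ) ^ 2 ≤ 2 ^ (3 * L) := pow_le_pow_right₀ one_le_two (by omega)
          have := mul_le_mul_of_nonneg_right h3 hD0
          have habs := abs_le.1 (hrL q v w)
          constructor <;> linarith [habs.1, habs.2]
      refine (hGBl v w hprev.1 hprev.2).trans ?_
      calc 6 * M * 2 * ‖GB v - GB w‖ ≤ 30000 * M * ‖GB v - GB w‖ := by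
            gcongr ?_ * _
            linarith
        _ ≤ _ := mul_le_mul_of_nonneg_left (le_norm_cat_right _ _) (by linarith)
  · refine (norm_cat_le _ _).trans ?_
    have h1 : ‖S‖ ≤ (q : ℝ) * (6 * cellLip Lam * D) := by
      have hc : ∀ k, ‖GS k v - GS k w‖ ≤ 6 * cellLip Lam * D := fun k => hGSu k v w
      refine le_trans (b := ∑ k, ‖GS k v - GS k w‖) ?_ ?_
      · refine norm_le_of_rpow_le _ (Finset.sum_nonneg fun k _ => norm_nonneg _) ?_
        rw [← norm_rpow_eq, hSp]
        exact sum_rpow_le_rpow_sum _ hp1 fun k => norm_nonneg _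
      · exact (Finset.sum_le_sum fun k _ => hc k).trans_eq (by simp)
    have h2' := hGBu v w
    have e' : totalDist Lam q * (1 / (30000 * M)) * D = (6 * q * cellLip Lam + 48) * D := by
      rw [totalDist, hM]
      field_simp
    rw [e']
    linarith

end Vale.Agent.P249.Sub
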