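import Vale.Agent.P249.Sub.Assemble

/-!
Asymptotics of the dimension of the multi-stage embedding.
-/

namespace Vale.Agent.P249.Sub

open Filter

lemma projRank_le {N : ℕ} {x : ℝ} (hx : (128 : ℝ) ^ 4 ≤ x) (hN : (N : ℝ) ≤ x ^ (1 / 4 : ℝ)) :
    (projRank N : ℝ) ≤ Real.exp (x / 4) := by
  set y := x ^ (1 / 4 : ℝ) with hy
  have hx0 : 0 ≤ x := le_trans (by positivity) hx
  have hy4 : y ^ 4 = x := by
    rw [hy, ← Real.rpow_natCast, ← Real.rpow_mul hx0]; norm_num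
  have hy128 : 128 ≤ y := by
    by_contra h
    push Not at h
    have := pow_lt_pow_left₀ h (Real.rpow_nonneg hx0 _) (by norm_num : (4 : ℕ) ≠ 0)
    linarith
  have h1 : (projRank N : ℝ) ≤ Real.exp (8 * ((N : ℝ) + 1) ^ 2) ^ N := by
    unfold projRank
    push_cast
    exact pow_le_pow_left₀ (by positivity) (Real.add_one_le_exp _) N
  refine h1.trans ?_
  rw [← Real.exp_nat_mul, Real.exp_le_exp]
  calc (N : ℝ) * (8 * ((N : ℝ) + 1) ^ 2) ≤ y * (8 * (2 * y) ^ 2) := by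
        gcongr
        linarith
    _ = 32 * y ^ 3 := by ring
    _ ≤ y * y ^ 3 / 4 := by
        have := mul_le_mul_of_nonneg_right hy128 (pow_nonneg (by linarith : (0 : ℝ) ≤ y) 3)
        linarith
    _ = x / 4 := by rw [← hy4]; ring

lemma natLog_le (n : ℕ) (hn : 1 ≤ n) : (Nat.log 2 n : ℝ) ≤ 2 * Real.log n := by
  have h1 : (2 : ℝ) ^ Nat.log 2 n ≤ n := by
    exact_mod_cast Nat.pow_log_le_self 2 (show n ≠ 0 by omega)
  have h2 := Real.log_le_log (by positivity) h1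
  rw [Real.log_pow] at h2
  have := Real.log_two_gt_d9
  have h3 : (0 : ℝ) ≤ Nat.log 2 n := Nat.cast_nonneg _
  nlinarith

lemma final_arith {x n n4 n34 C1 C2 C4 M Q K T : ℝ} {A e P1 P : ℕ} (hC2' : 0 ≤ C2) (hT : 0 ≤ T)
    (hC4' : 0 < C4) (hx1 : 1 ≤ x) (hn : 1 ≤ n) (hn41 : 1 ≤ n4) (hmul : n34 * n4 = n)
    (hC2 : C2 = Q * (13 * M) * C1) (hC4 : C4 = 13 * M * K) (hP : P + 1 ≤ e)
    (hP1 : A + P + 3 ≤ P1)
    (hsm : x ^ (A + e + 1) ≤ 1 / (2 * (C2 + C4)) * n34) (hxC : 2 * C4 * T ≤ x) :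
    (Q * (13 * x * M * (C1 * (x ^ e * n4))) +
      13 * x * M * (K * (x ^ (P + 1) * (T * n / x ^ P1 + 1)))) * x ^ A ≤ n := by
  have hx0 : 0 < x := by linarith
  have h1 : x ^ (A + P + 2) ≤ x ^ (A + e + 1) * n4 :=
    (pow_le_pow_right₀ hx1 (by omega)).trans (le_mul_of_one_le_right (by positivity) hn41)
  have h2 : x ^ (A + P + 2) / x ^ P1 ≤ 1 / x := by
    rw [div_le_div_iff₀ (by positivity) hx0, one_mul, ← pow_succ]
    exact pow_le_pow_right₀ hx1 (by omega)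
  have h3 : (C2 + C4) * (x ^ (A + e + 1) * n4) ≤ n / 2 := by
    calc (C2 + C4) * (x ^ (A + e + 1) * n4)
        ≤ (C2 + C4) * (1 / (2 * (C2 + C4)) * n34 * n4) := by gcongr
      _ = n34 * n4 / 2 := by field_simp
      _ = n / 2 := by rw [hmul]
  have h4 : C4 * T * n * (1 / x) ≤ n / 2 := by
    rw [mul_one_div, div_le_iff₀ hx0]
    have := mul_le_mul_of_nonneg_left hxC (by linarith : (0 : ℝ) ≤ n)
    linarith
  calc (Q * (13 * x * M * (C1 * (x ^ e * n4))) +
        13 * x * M * (K * (x ^ (P + 1) * (T * n / x ^ P1 + 1)))) * x ^ A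
      = C2 * (x ^ (A + e + 1) * n4) + C4 * x ^ (A + P + 2) +
          C4 * T * n * (x ^ (A + P + 2) / x ^ P1) := by
        rw [hC2, hC4]; ring
    _ ≤ C2 * (x ^ (A + e + 1) * n4) + C4 * (x ^ (A + e + 1) * n4) + C4 * T * n * (1 / x) := by
        gcongr
    _ ≤ n := by linarith

/-- The exponent of the radial lift. -/
noncomputable def radExp (p : ℝ) : ℕ := 2 * (⌈p⌉₊ + 3)

/-- The scale parameter. -/
noncomputable def lamOf (p : ℝ) : ℕ := 28 * ⌈p⌉₊ * radExp p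

/-- Number of stages needed to gain `A` powers of the logarithm. -/
noncomputable def stagesOf (p : ℝ) (A : ℕ) : ℕ := 4 * (A + ⌈p⌉₊ + 6)

/-- Bound on the dimension of one stage. -/
lemma stageDim_le {p : ℝ} {n N Lam : ℕ} (hn1 : 1 ≤ n)
    (hx128 : (128 : ℝ) ^ 4 ≤ Real.log n) (hLam1 : Lam = 28 * ⌈p⌉₊ * radExp p)
    (hNy : (N : ℝ) ≤ Real.log n ^ (1 / 4 : ℝ)) :
    (stageDim p (Nat.log 2 n / Lam + 1) N n : ℝ) ≤
      (2 + 9 * ((6 * liftConst p) ^ radExp p * 2 ^ (7 * ⌈p⌉₊ * radExp p))) *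
        (Real.log n ^ radExp p * (n : ℝ) ^ (1 / 4 : ℝ)) := by
  set P := ⌈p⌉₊ with hPdef
  set e := radExp p with he
  set x := Real.log n with hx
  have hlc := liftConst_pos p
  have hx1 : 1 ≤ x := le_trans (by norm_num) hx128
  have hnR : (1 : ℝ) ≤ n := by exact_mod_cast hn1
  set l := Nat.log 2 n with hl
  have hlx : (l : ℝ) ≤ 2 * x := natLog_le n hn1
  set L := l / Lam + 1 with hLdef
  set n4 := (n : ℝ) ^ (1 / 4 : ℝ) with hn4
  have hn41 : 1 ≤ n4 := Real.one_le_rpow hnR (by norm_num)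
  have hpow : (2 : ℝ) ^ (7 * P * e * (l / Lam)) ≤ n4 := by
    set k := 7 * P * e * (l / Lam) with hk
    have h1 : k * 4 ≤ l := by
      have h2 : k * 4 = Lam * (l / Lam) := by rw [hk, hLam1]; ring
      have h3 := Nat.mul_div_le l Lam
      omega
    have h4 : ((2 : ℝ) ^ k) ^ 4 ≤ n := by
      rw [← pow_mul]
      refine (pow_le_pow_right₀ one_le_two h1).trans ?_
      exact_mod_cast Nat.pow_log_le_self 2 (show n ≠ 0 by omega)
    calc (2 : ℝ) ^ k = (((2 : ℝ) ^ k) ^ 4) ^ (((4 : ℕ) : ℝ)⁻¹) :=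
          (Real.pow_rpow_inv_natCast (by positivity) (by norm_num)).symm
      _ ≤ (n : ℝ) ^ (((4 : ℕ) : ℝ)⁻¹) := Real.rpow_le_rpow (by positivity) h4 (by positivity)
      _ = n4 := by rw [hn4]; norm_num
  have hrad : radialDim p L n ≤ (6 * liftConst p) ^ e * 2 ^ (7 * P * e) * x ^ e * n4 := by
    have h1 : ((2 : ℝ) ^ (7 * L)) ^ p ≤ 2 ^ (7 * L * P) := by
      rw [pow_mul _ (7 * L) P, ← Real.rpow_natCast ((2 : ℝ) ^ (7 * L)) P]
      exact Real.rpow_le_rpow_of_exponent_le (one_le_pow₀ one_le_two) (Nat.le_ceil p)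
    have h2 : (2 : ℝ) ^ (7 * L * P * e) ≤ 2 ^ (7 * P * e) * n4 := by
      rw [show 7 * L * P * e = 7 * P * e + 7 * P * e * (l / Lam) by rw [hLdef]; ring, pow_add]
      exact mul_le_mul_of_nonneg_left hpow (by positivity)
    calc radialDim p L n = (2 * liftConst p * ((2 : ℝ) ^ (7 * L)) ^ p * ((l : ℝ) + 1)) ^ e := rfl
      _ ≤ (2 * liftConst p * 2 ^ (7 * L * P) * (3 * x)) ^ e := by
          gcongr
          linarith
      _ = (6 * liftConst p) ^ e * 2 ^ (7 * L * P * e) * x ^ e := by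
          rw [pow_mul _ (7 * L * P) e, ← mul_pow, ← mul_pow]
          congr 1
          ring
      _ ≤ (6 * liftConst p) ^ e * (2 ^ (7 * P * e) * n4) * x ^ e := by gcongr
      _ = _ := by ring
  have hxe : 1 ≤ x ^ e * n4 := one_le_mul_of_one_le_of_one_le (one_le_pow₀ hx1) hn41
  have hproj : (projRank N : ℝ) ≤ x ^ e * n4 := by
    refine (projRank_le hx128 hNy).trans ?_
    have : Real.exp (x / 4) = n4 := by
      rw [hn4, Real.rpow_def_of_pos (by linarith), hx]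
      ring_nf
    rw [this]
    exact le_mul_of_one_le_left (by linarith) (one_le_pow₀ hx1)
  refine (Nat.floor_le ?_).trans ?_
  · unfold cellDim radialDim; positivity
  · unfold cellDim
    linarith

/-- Bound on the dimension of the bottom stage. -/
lemma bottomDim_le {p : ℝ} (hp : 1 ≤ p) {n m : ℕ} {B : ℝ} (hn1 : 1 ≤ n)
    (hx1 : 1 ≤ Real.log n) (hm : (m : ℝ) ≤ B) (hB : 1 ≤ B) :
    (bottomDim p m n : ℝ) ≤
      (128 * 7 ^ ⌈p⌉₊ + 1) * (Real.log n ^ (⌈p⌉₊ + 1) * B) := by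
  set P := ⌈p⌉₊ with hPdef
  set x := Real.log n with hx
  have hnR : (1 : ℝ) ≤ n := by exact_mod_cast hn1
  set l := Nat.log 2 n with hl
  have hlx : (l : ℝ) ≤ 2 * x := natLog_le n hn1
  have hT : ((2 * (l + 1) + 1 : ℕ) : ℝ) ≤ 7 * x := by push_cast; linarith
  have hlog3 : Real.log (3 * (n : ℝ) ^ 2) ≤ 4 * x := by
    rw [Real.log_mul (by norm_num) (by positivity), Real.log_pow]
    have : Real.log 3 ≤ 3 - 1 := Real.log_le_sub_one_of_pos (by norm_num)
    push_cast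
    linarith
  have hlog30 : 0 ≤ Real.log (3 * (n : ℝ) ^ 2) := Real.log_nonneg (by nlinarith)
  have h0 : (bottomDim p m n : ℝ) ≤
      32 * (m : ℝ) * ((2 * (l + 1) + 1 : ℕ) : ℝ) ^ p * Real.log (3 * (n : ℝ) ^ 2) + 1 := by
    rw [bottomDim, ← hl, Nat.cast_succ]
    gcongr
    exact Nat.floor_le (by positivity)
  refine h0.trans ?_
  have h7 : (7 * x) ^ p ≤ (7 * x) ^ P := by
    rw [← Real.rpow_natCast (7 * x) P]
    exact Real.rpow_le_rpow_of_exponent_le (by linarith) (Nat.le_ceil p)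
  have h8 : ((2 * (l + 1) + 1 : ℕ) : ℝ) ^ p ≤ (7 * x) ^ P :=
    (Real.rpow_le_rpow (Nat.cast_nonneg _) hT (by linarith)).trans h7
  have h9 : 1 ≤ x ^ (P + 1) * B := one_le_mul_of_one_le_of_one_le (one_le_pow₀ hx1) hB
  calc 32 * (m : ℝ) * ((2 * (l + 1) + 1 : ℕ) : ℝ) ^ p * Real.log (3 * (n : ℝ) ^ 2) + 1
      ≤ 32 * B * (7 * x) ^ P * (4 * x) + 1 := by gcongr
    _ = 128 * 7 ^ P * (x ^ (P + 1) * B) + 1 := by rw [mul_pow, pow_succ]; ring
    _ ≤ _ := by linarith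

/-- Eventual bounds on all parameters. -/
lemma eventually_params {p : ℝ} (hp : 1 ≤ p) (A : ℕ) :
    ∀ᶠ n : ℕ in atTop, ∃ L N : ℕ, 16 ≤ L ∧ n ≤ 2 ^ (lamOf p * L) ∧ 1 ≤ N ∧
      2 * N ^ stagesOf p A ≤ n ∧
      ((stagesOf p A * ((L + 10) * 2 ^ (10 * lamOf p) * stageDim p L N n) +
        (L + 10) * 2 ^ (10 * lamOf p) *
          bottomDim p (cellSize n N (stagesOf p A)) n : ℕ) : ℝ) ≤ n / Real.log n ^ A := by
  set P := ⌈p⌉₊ with hPdef
  set e := radExp p with he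
  set Lam := lamOf p with hLam
  set q := stagesOf p A with hq
  have hP : 1 ≤ P := Nat.one_le_iff_ne_zero.2 (Nat.ceil_pos.2 (by linarith)).ne'
  have he1 : e = 2 * (P + 3) := rfl
  have hLam1 : Lam = 28 * P * e := rfl
  have hq1 : q = 4 * (A + P + 6) := rfl
  have hLampos : 0 < Lam := by rw [hLam1, he1]; positivity
  set M : ℝ := 2 ^ (10 * Lam) with hM
  set C1 : ℝ := 2 + 9 * ((6 * liftConst p) ^ e * 2 ^ (7 * P * e)) with hC1
  set C2 : ℝ := q * (13 * M) * C1 with hC2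
  set C4 : ℝ := 13 * M * (128 * 7 ^ P + 1) with hC4
  have hlc := liftConst_pos p
  have hC4pos : 0 < C4 := by positivity
  have hC2pos : 0 ≤ C2 := by positivity
  have hlim : Tendsto (fun n : ℕ => Real.log n) atTop atTop :=
    Real.tendsto_log_atTop.comp tendsto_natCast_atTop_atTop
  have hsmall : ∀ (k : ℕ) (ε : ℝ), 0 < ε →
      ∀ᶠ n : ℕ in atTop, Real.log n ^ k ≤ ε * (n : ℝ) ^ (3 / 4 : ℝ) := by
    intro k ε hε
    have h := ((isLittleO_log_rpow_rpow_atTop (k : ℝ) (by norm_num : (0 : ℝ) < 3 / 4)).comp_tendsto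
      tendsto_natCast_atTop_atTop).def hε
    filter_upwards [h, hlim.eventually_ge_atTop 0] with n hn hn0
    simp only [Function.comp_apply, Real.rpow_natCast, Real.norm_eq_abs,
      abs_of_nonneg (pow_nonneg hn0 k),
      abs_of_nonneg (Real.rpow_nonneg (Nat.cast_nonneg n) (3 / 4 : ℝ))] at hn
    exact hn
  filter_upwards [eventually_ge_atTop (2 ^ (16 * Lam)), hlim.eventually_ge_atTop ((128 : ℝ) ^ 4),
    hlim.eventually_ge_atTop (2 * C4 * 2 ^ q),
    hsmall (A + e + 1) (1 / (2 * (C2 + C4))) (by positivity),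
    hsmall q (1 / 2) (by norm_num)] with n hn hx128 hxC hsm1 hsm2
  set x := Real.log n with hx
  have hx1 : 1 ≤ x := le_trans (by norm_num) hx128
  have hn1 : 1 ≤ n := le_trans Nat.one_le_two_pow hn
  have hnR : (1 : ℝ) ≤ n := by exact_mod_cast hn1
  set l := Nat.log 2 n with hl
  have hl16 : 16 * Lam ≤ l := Nat.le_log_of_pow_le one_lt_two hn
  have hlx : (l : ℝ) ≤ 2 * x := natLog_le n hn1
  set L := l / Lam + 1 with hLdef
  set y := x ^ (1 / 4 : ℝ) with hy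
  set N := ⌊y⌋₊ with hN
  have hy1 : 1 ≤ y := Real.one_le_rpow hx1 (by norm_num)
  have hyx : y ≤ x := by
    calc y ≤ x ^ (1 : ℝ) := Real.rpow_le_rpow_of_exponent_le hx1 (by norm_num)
      _ = x := Real.rpow_one x
  have hNy : (N : ℝ) ≤ y := Nat.floor_le (by linarith)
  have hN1 : 1 ≤ N := (Nat.le_floor_iff (by linarith)).2 (by exact_mod_cast hy1)
  have hNhalf : y / 2 ≤ N := by
    have h1 : y < N + 1 := Nat.lt_floor_add_one y
    have h2 : (1 : ℝ) ≤ N := by exact_mod_cast hN1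
    linarith
  have hn34 : (n : ℝ) ^ (3 / 4 : ℝ) ≤ n := by
    calc (n : ℝ) ^ (3 / 4 : ℝ) ≤ (n : ℝ) ^ (1 : ℝ) :=
          Real.rpow_le_rpow_of_exponent_le hnR (by norm_num)
      _ = n := Real.rpow_one _
  refine ⟨L, N, ?_, ?_, hN1, ?_, ?_⟩
  · have : 16 ≤ l / Lam := (Nat.le_div_iff_mul_le hLampos).2 hl16
    omega
  · refine (Nat.lt_pow_succ_log_self one_lt_two n).le.trans (Nat.pow_le_pow_right two_pos ?_)
    have := Nat.lt_div_mul_add (a := l) hLampos
    rw [hLdef, Nat.mul_add, Nat.mul_comm, mul_one]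
    omega
  · have h1 : ((2 * N ^ q : ℕ) : ℝ) ≤ (n : ℝ) := by
      push_cast
      calc (2 : ℝ) * (N : ℝ) ^ q ≤ 2 * x ^ q := by
            gcongr
            linarith
        _ ≤ n := by linarith
    exact_mod_cast h1
  -- the radial part
  have hL13 : ((L + 10 : ℕ) : ℝ) ≤ 13 * x := by
    have : L ≤ l + 1 := by
      have := Nat.div_le_self l Lam
      omega
    have h2 : (L : ℝ) ≤ l + 1 := by exact_mod_cast this
    push_cast
    linarith
  set n4 := (n : ℝ) ^ (1 / 4 : ℝ) with hn4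
  have hn41 : 1 ≤ n4 := Real.one_le_rpow hnR (by norm_num)
  have hstage : (stageDim p L N n : ℝ) ≤ C1 * (x ^ e * n4) :=
    stageDim_le hn1 hx128 hLam1 hNy
  -- the bottom part
  set P1 := A + P + 6 with hP1
  have hyq : x ^ P1 ≤ 2 ^ q * ((N : ℝ) ^ q) := by
    have h1 : (y / 2) ^ q ≤ (N : ℝ) ^ q := pow_le_pow_left₀ (by positivity) hNhalf q
    have h2 : y ^ q = x ^ P1 := by
      rw [hq1, pow_mul]
      congr 1
      rw [hy, ← Real.rpow_natCast, ← Real.rpow_mul (by linarith)]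
      norm_num
    rw [div_pow, h2, div_le_iff₀ (by positivity)] at h1
    linarith
  have hcell : (cellSize n N q : ℝ) ≤ 2 ^ q * n / x ^ P1 + 1 := by
    have h1 : (cellSize n N q : ℝ) ≤ ((n / N ^ q : ℕ) : ℝ) + 1 := by
      exact_mod_cast cellSize_le (n := n) (k := q) hN1
    refine h1.trans (by
      gcongr
      refine Nat.cast_div_le.trans ?_
      push_cast
      rw [div_le_div_iff₀ (by positivity) (by positivity)]
      have := mul_le_mul_of_nonneg_left hyq (by linarith : (0 : ℝ) ≤ n)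
      linarith)
  have hbot : (bottomDim p (cellSize n N q) n : ℝ) ≤
      (128 * 7 ^ P + 1) * (x ^ (P + 1) * (2 ^ q * n / x ^ P1 + 1)) :=
    bottomDim_le hp hn1 hx1 hcell (le_add_of_nonneg_left (by positivity))
  rw [le_div_iff₀ (by positivity)]
  push_cast at hL13 ⊢
  rw [← hM]
  have hstage' : ((L : ℝ) + 10) * M * stageDim p L N n ≤ 13 * x * M * (C1 * (x ^ e * n4)) :=
    mul_le_mul (mul_le_mul_of_nonneg_right hL13 (by positivity)) hstage (Nat.cast_nonneg _)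
      (by positivity)
  have hbot' : ((L : ℝ) + 10) * M * bottomDim p (cellSize n N q) n ≤
      13 * x * M * ((128 * 7 ^ P + 1) * (x ^ (P + 1) * (2 ^ q * n / x ^ P1 + 1))) :=
    mul_le_mul (mul_le_mul_of_nonneg_right hL13 (by positivity)) hbot (Nat.cast_nonneg _)
      (by positivity)
  refine le_trans (mul_le_mul_of_nonneg_right
    (add_le_add (mul_le_mul_of_nonneg_left hstage' (Nat.cast_nonneg _)) hbot') (by positivity)) ?_
  exact final_arith (by positivity) (by positivity) hC4pos hx1 hnR hn41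
    (by rw [hn4, ← Real.rpow_add (by linarith)]; norm_num) hC2 hC4 (by omega) (by omega) hsm1 hxC

end Vale.Agent.P249.Sub
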