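import Mathlib

/-!
Choosing a random subset keeps finitely many weighted counts close to their means.
-/

namespace Vale.Agent.P249.Sub

open Finset

variable {F : Type*} [Fintype F] [DecidableEq F]

/-- The weight of a subset. -/
noncomputable def bweight (q : F → ℝ) (ξ : F → Bool) : ℝ :=
  ∏ f, if ξ f then q f else 1 - q f

/-- The selected count. -/
noncomputable def bcount (c : F → ℝ) (ξ : F → Bool) : ℝ := ∑ f, if ξ f then c f else 0

lemma bweight_nonneg {q : F → ℝ} (h0 : ∀ f, 0 ≤ q f) (h1 : ∀ f, q f ≤ 1) (ξ : F → Bool) :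
    0 ≤ bweight q ξ :=
  Finset.prod_nonneg fun f _ => by split <;> linarith [h0 f, h1 f]

lemma sum_bweight_exp (q c : F → ℝ) (l : ℝ) :
    ∑ ξ : F → Bool, bweight q ξ * Real.exp (l * bcount c ξ) =
      ∏ f, (q f * Real.exp (l * c f) + (1 - q f)) := by
  classical
  rw [Finset.prod_congr rfl (g := fun f => ∑ b : Bool,
    (if b then q f else 1 - q f) * Real.exp (l * if b then c f else 0)) fun f _ => by simp]
  rw [Fintype.prod_sum]
  refine Finset.sum_congr rfl fun ξ _ => ?_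
  rw [Finset.prod_mul_distrib, ← Real.exp_sum, ← Finset.mul_sum]
  rfl

lemma sum_bweight (q : F → ℝ) : ∑ ξ : F → Bool, bweight q ξ = 1 := by
  have := sum_bweight_exp q 0 0
  simpa using this

lemma mgf_le {q c : F → ℝ} {l Bd : ℝ} (h0 : ∀ f, 0 ≤ q f) (h1 : ∀ f, q f ≤ 1)
    (hc : ∀ f, 0 ≤ c f) (hbd : ∀ f, q f < 1 → c f ≤ Bd) (hl : |l| * Bd ≤ 1) (hBd : 0 ≤ Bd) :
    ∑ ξ : F → Bool, bweight q ξ * Real.exp (l * bcount c ξ) ≤
      Real.exp ((l + l ^ 2 * Bd) * ∑ f, q f * c f) := by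
  rw [sum_bweight_exp, Finset.mul_sum, Real.exp_sum]
  refine Finset.prod_le_prod (fun f _ => add_nonneg (mul_nonneg (h0 f) (Real.exp_pos _).le)
    (by linarith [h1 f])) fun f _ => ?_
  rcases eq_or_lt_of_le (h1 f) with hq | hq
  · rw [hq]
    simp only [one_mul, sub_self, add_zero]
    apply Real.exp_le_exp.2
    nlinarith [mul_nonneg (mul_nonneg (sq_nonneg l) hBd) (hc f)]
  · have habs : |l * c f| ≤ 1 := by
      rw [abs_mul, abs_of_nonneg (hc f)]
      exact le_trans (mul_le_mul_of_nonneg_left (hbd f hq) (abs_nonneg l)) hl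
    have h2 := (abs_le.1 (Real.abs_exp_sub_one_sub_id_le habs)).2
    have h3 : (l * c f) ^ 2 ≤ l ^ 2 * Bd * c f := by
      have := mul_le_mul_of_nonneg_left (hbd f hq) (mul_nonneg (sq_nonneg l) (hc f))
      nlinarith
    refine le_trans ?_ (Real.add_one_le_exp _)
    have := mul_le_mul_of_nonneg_left (le_trans h2 h3) (h0 f)
    nlinarith

/-- Some subset keeps every count between half and three halves of its mean, up to `t`. -/
theorem exists_subset {P : Type*} [Fintype P] {q : F → ℝ} (h0 : ∀ f, 0 ≤ q f)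
    (h1 : ∀ f, q f ≤ 1) (c : P → F → ℝ) (Bd t : P → ℝ) (hc : ∀ a f, 0 ≤ c a f)
    (hbd : ∀ a f, q f < 1 → c a f ≤ Bd a) (hBd : ∀ a, 0 < Bd a)
    (hsmall : 2 * ∑ a, Real.exp (-(t a / (2 * Bd a))) < 1) :
    ∃ ξ : F → Bool, ∀ a, (∑ f, q f * c a f) / 2 - t a ≤ bcount (c a) ξ ∧
      bcount (c a) ξ ≤ 3 * (∑ f, q f * c a f) / 2 + t a := by
  classical
  by_contra hne
  push Not at hne
  set μ := fun a => ∑ f, q f * c a f with hμ
  set E := fun (σ : ℝ) (a : P) (ξ : F → Bool) =>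
    Real.exp (σ / (2 * Bd a) * bcount (c a) ξ) *
      Real.exp (-(σ * μ a / (2 * Bd a)) - μ a / (4 * Bd a) - t a / (2 * Bd a)) with hE
  have hpos : ∀ σ a ξ, 0 < E σ a ξ := fun _ _ _ => mul_pos (Real.exp_pos _) (Real.exp_pos _)
  have hbad : ∀ ξ, 1 ≤ ∑ a, (E 1 a ξ + E (-1) a ξ) := by
    intro ξ
    obtain ⟨a, ha⟩ := hne ξ
    refine le_trans ?_ (Finset.single_le_sum
      (fun b _ => (add_pos (hpos 1 b ξ) (hpos (-1) b ξ)).le) (Finset.mem_univ a))
    have hex : ∀ σ : ℝ, 0 ≤ σ * (bcount (c a) ξ - μ a) - μ a / 2 - t a → 1 ≤ E σ a ξ := by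
      intro σ h
      simp only [hE]
      rw [← Real.exp_add]
      refine Real.one_le_exp ?_
      have h4 : 0 ≤ (σ * (bcount (c a) ξ - μ a) - μ a / 2 - t a) / (2 * Bd a) :=
        div_nonneg h (by linarith [hBd a])
      refine h4.trans_eq ?_
      have := (hBd a).ne'
      field_simp
      ring
    by_cases hlo : μ a / 2 - t a ≤ bcount (c a) ξ
    · refine le_trans (hex 1 ?_) (by linarith [hpos (-1) a ξ])
      linarith [ha hlo]
    · refine le_trans (hex (-1) ?_) (by linarith [hpos 1 a ξ])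
      linarith
  have hone : ∀ a σ, (σ = 1 ∨ σ = -1) →
      ∑ ξ : F → Bool, bweight q ξ * E σ a ξ ≤ Real.exp (-(t a / (2 * Bd a))) := by
    intro a σ hσ
    simp only [hE, ← mul_assoc]
    rw [← Finset.sum_mul]
    have hσa : |σ| = 1 := by rcases hσ with rfl | rfl <;> simp
    have hm := mgf_le (l := σ / (2 * Bd a)) h0 h1 (hc a) (hbd a) (by
      rw [abs_div, hσa, abs_of_pos (by linarith [hBd a] : (0 : ℝ) < 2 * Bd a)]
      have := (hBd a).ne'
      field_simp
      norm_num) (hBd a).le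
    refine (mul_le_mul_of_nonneg_right hm (Real.exp_pos _).le).trans_eq ?_
    rw [← Real.exp_add]
    congr 1
    have := (hBd a).ne'
    simp only [hμ]
    rcases hσ with rfl | rfl <;> field_simp <;> ring
  have : (1 : ℝ) ≤ 2 * ∑ a, Real.exp (-(t a / (2 * Bd a))) := by
    calc (1 : ℝ) = ∑ ξ : F → Bool, bweight q ξ * 1 := by simp [sum_bweight]
      _ ≤ ∑ ξ : F → Bool, bweight q ξ * ∑ a, (E 1 a ξ + E (-1) a ξ) :=
          Finset.sum_le_sum fun ξ _ =>
            mul_le_mul_of_nonneg_left (hbad ξ) (bweight_nonneg h0 h1 ξ)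
      _ = ∑ a, ((∑ ξ : F → Bool, bweight q ξ * E 1 a ξ) +
            ∑ ξ : F → Bool, bweight q ξ * E (-1) a ξ) := by
          simp only [Finset.mul_sum, mul_add]
          rw [Finset.sum_comm]
          simp only [Finset.sum_add_distrib]
      _ ≤ ∑ a, (Real.exp (-(t a / (2 * Bd a))) + Real.exp (-(t a / (2 * Bd a)))) :=
          Finset.sum_le_sum fun a _ =>
            add_le_add (hone a 1 (Or.inl rfl)) (hone a (-1) (Or.inr rfl))
      _ = _ := by rw [Finset.mul_sum]; exact Finset.sum_congr rfl fun a _ => by ring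
  linarith

end Vale.Agent.P249.Sub
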