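import Mathlib

/-!
Finite-dimensional `p`-norm spaces.
-/

namespace Vale.Agent.P249.Sub

open Finset

/-- `ℝ^I` with the `p`-norm. -/
abbrev Ell (p : ℝ) (I : Type*) := PiLp (ENNReal.ofReal p) fun _ : I => ℝ

variable {p : ℝ} [hp : Fact (1 ≤ ENNReal.ofReal p)] {I J : Type*} [Fintype I] [Fintype J]

omit [Fintype I] [Fintype J] in
lemma one_le_p (hp' : Fact (1 ≤ ENNReal.ofReal p) := hp) : 1 ≤ p := by
  simpa using hp'.out

omit [Fintype J] in
lemma norm_rpow_eq (v : Ell p I) : ‖v‖ ^ p = ∑ i, |v i| ^ p := by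
  have hp1 : 1 ≤ p := one_le_p
  have hp0 : 0 < p := by linarith
  rw [PiLp.norm_eq_sum (by rw [ENNReal.toReal_ofReal hp0.le]; exact hp0),
    ENNReal.toReal_ofReal hp0.le, one_div,
    Real.rpow_inv_rpow (Finset.sum_nonneg fun i _ => Real.rpow_nonneg (norm_nonneg _) _) hp0.ne']
  simp [Real.norm_eq_abs]

omit [Fintype J] in
lemma norm_eq_rpow (v : Ell p I) : ‖v‖ = (∑ i, |v i| ^ p) ^ p⁻¹ := by
  have hp1 : 1 ≤ p := one_le_p
  rw [← norm_rpow_eq, Real.rpow_rpow_inv (norm_nonneg v) (by linarith)]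

omit [Fintype J] in
lemma norm_le_of_rpow_le (v : Ell p I) {b : ℝ} (hb : 0 ≤ b) (h : ∑ i, |v i| ^ p ≤ b ^ p) :
    ‖v‖ ≤ b := by
  have hp1 : 1 ≤ p := one_le_p
  rw [norm_eq_rpow, ← Real.rpow_rpow_inv hb (by linarith : p ≠ 0)]
  exact Real.rpow_le_rpow (Finset.sum_nonneg fun i _ => Real.rpow_nonneg (abs_nonneg _) _) h
    (inv_nonneg.2 (by linarith))

omit [Fintype J] in
lemma le_norm_of_le_rpow (v : Ell p I) {b : ℝ} (hb : 0 ≤ b) (h : b ^ p ≤ ∑ i, |v i| ^ p) :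
    b ≤ ‖v‖ := by
  have hp1 : 1 ≤ p := one_le_p
  rw [norm_eq_rpow, ← Real.rpow_rpow_inv hb (by linarith : p ≠ 0)]
  exact Real.rpow_le_rpow (Real.rpow_nonneg hb _) h (inv_nonneg.2 (by linarith))

/-- Concatenation. -/
def cat (v : Ell p I) (w : Ell p J) : Ell p (I ⊕ J) :=
  WithLp.toLp _ (Sum.elim (fun i => v i) fun j => w j)

lemma norm_rpow_cat (v : Ell p I) (w : Ell p J) : ‖cat v w‖ ^ p = ‖v‖ ^ p + ‖w‖ ^ p := by
  simp [norm_rpow_eq, cat, Fintype.sum_sum_type]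

omit [Fintype I] [Fintype J] in
lemma cat_sub (v v' : Ell p I) (w w' : Ell p J) : cat v w - cat v' w' = cat (v - v') (w - w') := by
  ext x; cases x <;> simp [cat]

lemma norm_cat_le (v : Ell p I) (w : Ell p J) : ‖cat v w‖ ≤ ‖v‖ + ‖w‖ := by
  have hp1 : 1 ≤ p := one_le_p
  apply norm_le_of_rpow_le _ (by positivity)
  rw [← norm_rpow_eq, norm_rpow_cat]
  exact Real.add_rpow_le_rpow_add (norm_nonneg v) (norm_nonneg w) hp1

lemma le_norm_cat_left (v : Ell p I) (w : Ell p J) : ‖v‖ ≤ ‖cat v w‖ := by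
  apply le_norm_of_le_rpow _ (norm_nonneg v)
  rw [← norm_rpow_eq (cat v w), norm_rpow_cat]
  linarith [Real.rpow_nonneg (norm_nonneg w) p]

lemma le_norm_cat_right (v : Ell p I) (w : Ell p J) : ‖w‖ ≤ ‖cat v w‖ := by
  apply le_norm_of_le_rpow _ (norm_nonneg w)
  rw [← norm_rpow_eq (cat v w), norm_rpow_cat]
  linarith [Real.rpow_nonneg (norm_nonneg v) p]

/-- Reindexing into a possibly larger index type, padding by zeros. -/
noncomputable def pad (e : I ↪ J) (v : Ell p I) : Ell p J :=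
  WithLp.toLp _ (Function.extend e (fun i => v i) 0)

omit [Fintype I] [Fintype J] in
lemma pad_sub (e : I ↪ J) (v w : Ell p I) : pad e v - pad e w = pad e (v - w) := by
  ext j
  by_cases h : ∃ i, e i = j
  · obtain ⟨i, rfl⟩ := h; simp [pad, e.injective.extend_apply]
  · simp [pad, Function.extend_apply' _ _ _ h]

lemma norm_pad (e : I ↪ J) (v : Ell p I) : ‖pad e v‖ = ‖v‖ := by
  classical
  have hp1 : 1 ≤ p := one_le_p
  rw [norm_eq_rpow, norm_eq_rpow]
  congr 1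
  rw [← Finset.sum_subset (Finset.subset_univ (Finset.univ.map e))]
  · rw [Finset.sum_map]
    simp [pad, e.injective.extend_apply]
  · intro j _ hj
    have h : ¬ ∃ i, e i = j := fun ⟨i, hi⟩ => hj (Finset.mem_map.2 ⟨i, Finset.mem_univ i, hi⟩)
    simp [pad, Function.extend_apply' _ _ _ h, Real.zero_rpow (show p ≠ 0 by linarith)]

end Vale.Agent.P249.Sub
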