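import Vale.Agent.P249.Sub.Cell

/-!
Gluing cell maps over the levels of bounded growth.
-/

namespace Vale.Agent.P249.Sub

open Finset

/-- A proper colouring with `M` colours of a set in which each point has fewer than `M`
conflicting partners. -/
lemma exists_colour {V : Type*} [DecidableEq V] (Rel : V → V → Prop) [DecidableRel Rel]
    (hsymm : ∀ a b, Rel a b → Rel b a) {M : ℕ} (hM : 0 < M) (Z : Finset V)
    (hdeg : ∀ z ∈ Z, ((Z.erase z).filter (Rel z)).card < M) :
    ∃ col : V → Fin M, ∀ a ∈ Z, ∀ b ∈ Z, a ≠ b → Rel a b → col a ≠ col b := by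
  classical
  induction Z using Finset.induction_on with
  | empty => exact ⟨fun _ => ⟨0, hM⟩, by simp⟩
  | insert z T hz ih =>
    obtain ⟨col, hcol⟩ := ih fun t ht => lt_of_le_of_lt
      (Finset.card_le_card (Finset.filter_subset_filter _
        (Finset.erase_subset_erase _ (Finset.subset_insert _ _))))
      (hdeg t (Finset.mem_insert_of_mem ht))
    have hused : ((T.filter (Rel z)).image col).card < (Finset.univ : Finset (Fin M)).card := by
      rw [Finset.card_univ, Fintype.card_fin]
      refine lt_of_le_of_lt Finset.card_image_le ?_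
      have := hdeg z (Finset.mem_insert_self _ _)
      rwa [Finset.erase_insert hz] at this
    obtain ⟨c, -, hc⟩ := Finset.exists_mem_notMem_of_card_lt_card hused
    refine ⟨Function.update col z c, fun a ha b hb hab hrel => ?_⟩
    rcases Finset.mem_insert.1 ha with ha' | ha' <;> rcases Finset.mem_insert.1 hb with hb' | hb'
    · exact absurd (ha'.trans hb'.symm) hab
    · subst ha'
      rw [Function.update_self, Function.update_of_ne (Ne.symm hab)]
      exact fun h => hc (Finset.mem_image.2 ⟨b, Finset.mem_filter.2 ⟨hb', hrel⟩, h.symm⟩)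
    · subst hb'
      rw [Function.update_self, Function.update_of_ne hab]
      exact fun h => hc (Finset.mem_image.2 ⟨a, Finset.mem_filter.2 ⟨ha', hsymm _ _ hrel⟩, h⟩)
    · rw [Function.update_of_ne (fun h => hz (by rwa [h] at ha')),
        Function.update_of_ne (fun h => hz (by rwa [h] at hb'))]
      exact hcol a ha' b hb' hab hrel

/-- Level selection. -/
noncomputable def levelBump (L : ℕ) (t : ℝ) : ℝ :=
  min 1 (max 0 (min (2 * t - 1) (2 - t / 2 ^ L)))

lemma levelBump_nonneg (L : ℕ) (t : ℝ) : 0 ≤ levelBump L t := le_min zero_le_one (le_max_left _ _)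

lemma levelBump_le_one (L : ℕ) (t : ℝ) : levelBump L t ≤ 1 := min_le_left _ _

lemma levelBump_eq_one {L : ℕ} {t : ℝ} (h1 : 1 ≤ t) (h2 : t ≤ 2 ^ L) : levelBump L t = 1 := by
  refine min_eq_left (le_max_of_le_right (le_min (by linarith) ?_))
  rw [le_sub_comm, div_le_iff₀ (by positivity)]
  linarith

lemma of_levelBump_pos {L : ℕ} {t : ℝ} (h : 0 < levelBump L t) : 1 < 2 * t ∧ t < 2 * 2 ^ L := by
  have h' := (lt_max_iff.1 (lt_min_iff.1 h).2).resolve_left (lt_irrefl _)
  obtain ⟨ha, hc⟩ := lt_min_iff.1 h'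
  rw [lt_sub_iff_add_lt, zero_add, div_lt_iff₀ (by positivity)] at hc
  exact ⟨by linarith, hc⟩

lemma levelBump_lip (L : ℕ) (t t' : ℝ) : |levelBump L t - levelBump L t'| ≤ 2 * |t - t'| := by
  unfold levelBump
  refine (abs_min_sub_min_le_max _ _ _ _).trans (max_le (by simp) ?_)
  refine (abs_max_sub_max_le_max _ _ _ _).trans (max_le (by simp) ?_)
  refine (abs_min_sub_min_le_max _ _ _ _).trans (max_le (le_of_eq ?_) ?_)
  · rw [show 2 * t - 1 - (2 * t' - 1) = 2 * (t - t') by ring, abs_mul]; norm_num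
  · rw [show 2 - t / 2 ^ L - (2 - t' / 2 ^ L) = -((1 / 2 ^ L) * (t - t')) by ring, abs_neg,
      abs_mul, abs_of_pos (by positivity)]
    refine mul_le_mul_of_nonneg_right ?_ (abs_nonneg _)
    rw [div_le_iff₀ (by positivity)]
    linarith [one_le_pow₀ (one_le_two (α := ℝ)) (n := L)]

/-- The tent around a centre. -/
noncomputable def tent (R d : ℝ) : ℝ := min 1 (max 0 (4 - d / R))

lemma tent_nonneg (R d : ℝ) : 0 ≤ tent R d := le_min zero_le_one (le_max_left _ _)

lemma tent_le_one (R d : ℝ) : tent R d ≤ 1 := min_le_left _ _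

lemma tent_eq_one {R d : ℝ} (hR : 0 < R) (h : d ≤ 3 * R) : tent R d = 1 := by
  refine min_eq_left (le_max_of_le_right ?_)
  rw [le_sub_comm, div_le_iff₀ hR]
  linarith

lemma of_tent_pos {R d : ℝ} (hR : 0 < R) (h : 0 < tent R d) : d < 4 * R := by
  have h' := (lt_max_iff.1 (lt_min_iff.1 h).2).resolve_left (lt_irrefl _)
  rw [lt_sub_iff_add_lt, zero_add, div_lt_iff₀ hR] at h'
  exact h'

lemma tent_lip {R : ℝ} (hR : 0 < R) (d d' : ℝ) : |tent R d - tent R d'| ≤ |d - d'| / R := by
  unfold tent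
  refine (abs_min_sub_min_le_max _ _ _ _).trans (max_le (by simp; positivity) ?_)
  refine (abs_max_sub_max_le_max _ _ _ _).trans (max_le (by simp; positivity) (le_of_eq ?_))
  rw [show 4 - d / R - (4 - d' / R) = -((d - d') / R) by ring, abs_neg, abs_div, abs_of_pos hR]

variable {p : ℝ} [hp : Fact (1 ≤ ENNReal.ofReal p)]

/-- The cells of radius `R` around `z` seen at scale `ρ`. -/
def InCell {V : Type*} [PseudoMetricSpace V] (ρ : V → ℝ) (L : ℕ) (R : ℝ) (z v : V) : Prop :=
  dist v z < 4 * R ∧ 2 ^ L * R < 2 * ρ v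

set_option maxHeartbeats 1000000 in
/-- Gluing: cell maps at all levels below `ρ` combine into one map. -/
theorem exists_glue {V : Type*} [Fintype V] [PseudoMetricSpace V] (ρ : V → ℝ) (hρ : ∀ v, 0 < ρ v)
    (hρL : ∀ v w, |ρ v - ρ w| ≤ dist v w) {L Lam : ℕ} (hL : 16 ≤ L) (hLam : 1 ≤ Lam)
    (hn : Fintype.card V ≤ 2 ^ (Lam * L)) {dE : ℕ} {CE Cl : ℝ} (hCE : 0 ≤ CE) (hCl : 0 < Cl)
    (good : V → V → Prop)
    (hcell : ∀ (R : ℝ) (z : V), 0 < R → ∃ E : V → Ell p (Fin dE),
      (∀ v, InCell ρ L R z v → ‖E v‖ ≤ CE * R) ∧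
      (∀ v w, InCell ρ L R z v → InCell ρ L R z w → ‖E v - E w‖ ≤ CE * dist v w) ∧
      ∀ v w, InCell ρ L R z v → InCell ρ L R z w → good v w → dist v w ≤ Cl * ‖E v - E w‖) :
    ∃ (d : ℕ) (G : V → Ell p (Fin d)), d ≤ (L + 10) * 2 ^ (10 * Lam) * dE ∧
      (∀ v w, ‖G v - G w‖ ≤ 6 * CE * dist v w) ∧
      ∀ v w, good v w → 2 ^ (3 * L) * dist v w ≤ 3 * ρ v → 2 ^ (3 * L) * dist v w ≤ 3 * ρ w →
        dist v w ≤ 6 * 2 ^ (10 * Lam) * Cl * ‖G v - G w‖ := by
  classical
  have hp1 : 1 ≤ p := one_le_p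
  have hp0 : 0 < p := by linarith
  set M : ℕ := 2 ^ (10 * Lam) with hM
  have hMpos : 0 < M := by positivity
  let R : ℤ → ℝ := fun a => (2 : ℝ) ^ a
  have hR : ∀ a, 0 < R a := fun a => zpow_pos two_pos a
  let N : V → ℝ → ℕ := fun v r => (Finset.univ.filter fun y => dist v y ≤ r).card
  have hN1 : ∀ v r, 0 ≤ r → 1 ≤ N v r := fun v r hr =>
    Finset.card_pos.2 ⟨v, Finset.mem_filter.2 ⟨Finset.mem_univ v, by rw [dist_self]; exact hr⟩⟩
  let Good : ℤ → Finset V := fun a =>
    Finset.univ.filter fun v => N v (32 * R a) ≤ M * N v (R a)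
  have hnet : ∀ a, ∃ Z ⊆ Good a, (∀ x ∈ Z, ∀ y ∈ Z, x ≠ y → 2 * R a < dist x y) ∧
      ∀ v ∈ Good a, ∃ z ∈ Z, dist v z ≤ 2 * R a := by
    intro a
    obtain ⟨Z, hZ, hsep, hcov⟩ := exists_greedy (Good a) (fun _ => (0 : ℝ))
      (fun x y => dist x y ≤ 2 * R a) (fun x y h => by rwa [dist_comm])
    refine ⟨Z, hZ, fun x hx y hy hxy => lt_of_not_ge (hsep x hx y hy hxy), fun v hv => ?_⟩
    obtain ⟨z, hz, -, h⟩ := hcov v hv
    rcases h with rfl | h
    · exact ⟨z, hz, by rw [dist_self]; linarith [hR a]⟩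
    · exact ⟨z, hz, h⟩
  choose Z hZgood hZsep hZcov using hnet
  have hdeg : ∀ a, ∀ z ∈ Z a,
      (((Z a).erase z).filter fun w => dist z w ≤ 8 * R a).card < M := by
    intro a z hz
    set W := (Z a).filter fun w => dist z w ≤ 8 * R a with hW
    have hzW : z ∈ W := Finset.mem_filter.2 ⟨hz, by rw [dist_self]; linarith [hR a]⟩
    set Nz := N z (9 * R a) with hNz
    have hsum : ∑ w ∈ W, N w (R a) ≤ Nz := by
      rw [← Finset.card_biUnion (fun x hx y hy hxy => Finset.disjoint_left.2 fun t ht ht' => by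
        simp only [Finset.mem_filter, Finset.mem_univ, true_and] at ht ht'
        have := hZsep a x (Finset.mem_filter.1 hx).1 y (Finset.mem_filter.1 hy).1 hxy
        linarith [dist_triangle_right x y t])]
      refine Finset.card_le_card fun t ht => ?_
      simp only [Finset.mem_biUnion, Finset.mem_filter, Finset.mem_univ, true_and] at ht ⊢
      obtain ⟨w, hw, hwt⟩ := ht
      linarith [dist_triangle z w t, (Finset.mem_filter.1 hw).2]
    have heach : ∀ w ∈ W, Nz ≤ M * N w (R a) := by
      intro w hw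
      obtain ⟨hwZ, hwd⟩ := Finset.mem_filter.1 hw
      refine le_trans (Finset.card_le_card fun t ht => ?_)
        (Finset.mem_filter.1 (hZgood a hwZ)).2
      simp only [Finset.mem_filter, Finset.mem_univ, true_and] at ht ⊢
      linarith [dist_triangle w z t, dist_comm w z, hR a]
    have h2 := Finset.card_nsmul_le_sum W _ _ heach
    rw [smul_eq_mul, ← Finset.mul_sum] at h2
    have h3 : W.card * Nz ≤ M * Nz := h2.trans (Nat.mul_le_mul_left M hsum)
    have h4 : W.card ≤ M :=
      Nat.le_of_mul_le_mul_right h3 (hN1 z _ (by linarith [hR a]))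
    rw [show ((Z a).erase z).filter (fun w => dist z w ≤ 8 * R a) = W.erase z by
      rw [hW, Finset.filter_erase], Finset.card_erase_of_mem hzW]
    have := Finset.card_pos.2 ⟨z, hzW⟩
    omega
  have hcol : ∀ a, ∃ col : V → Fin M, ∀ x ∈ Z a, ∀ y ∈ Z a, x ≠ y → dist x y ≤ 8 * R a →
      col x ≠ col y := fun a =>
    exists_colour (fun x y => dist x y ≤ 8 * R a) (fun x y h => by rwa [dist_comm]) hMpos (Z a)
      (hdeg a)
  choose col hcol using hcol
  choose E hEn hEu hEl using fun (aj : ℤ × V) => hcell (R aj.1) aj.2 (hR aj.1)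
  let bump : ℤ → V → ℝ := fun a v => levelBump L (ρ v / (2 ^ L * R a))
  let wt : ℤ × V → V → ℝ := fun j v => bump j.1 v * tent (R j.1) (dist v j.2)
  let lg : V → ℤ := fun v => Int.log 2 (ρ v)
  have hlg : ∀ v, (2 : ℝ) ^ lg v ≤ ρ v ∧ ρ v < (2 : ℝ) ^ (lg v + 1) := fun v => by
    constructor
    · exact_mod_cast Int.zpow_log_le_self one_lt_two (hρ v)
    · exact_mod_cast Int.lt_zpow_succ_log_self one_lt_two (ρ v)
  have hzp : ∀ (c : ℤ), (2 : ℝ) ^ L * (2 : ℝ) ^ c = (2 : ℝ) ^ ((L : ℤ) + c) := fun c => by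
    rw [zpow_add₀ two_ne_zero, zpow_natCast]
  have hrange : ∀ a v, 0 < bump a v → lg v - 2 * L ≤ a ∧ a ≤ lg v + 1 - L := by
    intro a v h
    obtain ⟨h1, h2⟩ := of_levelBump_pos h
    have hpos : 0 < 2 ^ L * R a := mul_pos (by positivity) (hR a)
    rw [mul_div_assoc', lt_div_iff₀ hpos, one_mul, hzp] at h1
    rw [div_lt_iff₀ hpos, mul_assoc 2, hzp, hzp] at h2
    obtain ⟨h3, h4⟩ := hlg v
    constructor
    · have h5 : (2 : ℝ) ^ lg v < (2 : ℝ) ^ ((L : ℤ) + ((L : ℤ) + a) + 1) := by
        rw [zpow_add_one₀ two_ne_zero]; linarith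
      have := (zpow_lt_zpow_iff_right₀ one_lt_two).1 h5
      omega
    · have h5 : (2 : ℝ) ^ ((L : ℤ) + a) < (2 : ℝ) ^ (lg v + 1 + 1) := by
        rw [zpow_add_one₀ two_ne_zero]; linarith
      have := (zpow_lt_zpow_iff_right₀ one_lt_two).1 h5
      omega
  let A0 : Finset ℤ :=
    Finset.univ.biUnion fun v => Finset.Icc (lg v - 2 * L) (lg v + 1 - L)
  let Pairs : Finset (ℤ × V) := (A0 ×ˢ Finset.univ).filter fun j => j.2 ∈ Z j.1
  let res : ℤ → Fin (L + 10) := fun a => ⟨(a % ((L + 10 : ℕ) : ℤ)).toNat, by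
    have h1 := Int.emod_nonneg a (show ((L + 10 : ℕ) : ℤ) ≠ 0 by omega)
    have h2 := Int.emod_lt_of_pos a (show (0 : ℤ) < ((L + 10 : ℕ) : ℤ) by omega)
    omega⟩
  have hres : ∀ a b, res a = res b → |a - b| < ((L + 10 : ℕ) : ℤ) → a = b := by
    intro a b h hab
    have h0 := congrArg Fin.val h
    simp only [res] at h0
    have h1 := Int.emod_nonneg a (show ((L + 10 : ℕ) : ℤ) ≠ 0 by omega)
    have h2 := Int.emod_nonneg b (show ((L + 10 : ℕ) : ℤ) ≠ 0 by omega)
    have h3 : a % ((L + 10 : ℕ) : ℤ) = b % ((L + 10 : ℕ) : ℤ) := by omega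
    have h4 := Int.emod_eq_emod_iff_emod_sub_eq_zero.1 h3
    have h5 : ((L + 10 : ℕ) : ℤ) ∣ a - b := Int.dvd_of_emod_eq_zero h4
    have := Int.eq_zero_of_abs_lt_dvd h5 hab
    omega
  let key : ℤ × V → Fin (L + 10) × Fin M := fun j => (res j.1, col j.1 j.2)
  let g : ℤ × V → V → Ell p (Fin dE) := fun j v => wt j v • E j v
  let comp : Fin (L + 10) × Fin M → V → Ell p (Fin dE) := fun r v =>
    ∑ j ∈ Pairs.filter (fun j => key j = r), g j v
  have hwt0 : ∀ j v, 0 ≤ wt j v := fun j v =>
    mul_nonneg (levelBump_nonneg _ _) (tent_nonneg _ _)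
  have hwt1 : ∀ j v, wt j v ≤ 1 := fun j v =>
    mul_le_one₀ (levelBump_le_one _ _) (tent_nonneg _ _) (tent_le_one _ _)
  have hwtpos : ∀ j v, 0 < wt j v → InCell ρ L (R j.1) j.2 v ∧ 0 < bump j.1 v := by
    intro j v h
    have hb : 0 < bump j.1 v := lt_of_le_of_ne (levelBump_nonneg _ _) fun h0 => by
      simp only [wt] at h; rw [show bump j.1 v = 0 from h0.symm, zero_mul] at h; exact lt_irrefl _ h
    have ht : 0 < tent (R j.1) (dist v j.2) := pos_of_mul_pos_right h hb.le
    refine ⟨⟨of_tent_pos (hR _) ht, ?_⟩, hb⟩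
    have h1 := (of_levelBump_pos hb).1
    rwa [mul_div_assoc', lt_div_iff₀ (mul_pos (by positivity) (hR _)), one_mul] at h1
  have hgz : ∀ j v, ¬ 0 < wt j v → g j v = 0 := fun j v h => by
    simp [g, le_antisymm (le_of_not_gt h) (hwt0 j v)]
  have hwlip : ∀ j v w, |wt j v - wt j w| * R j.1 ≤ 2 * dist v w := by
    intro j v w
    have hRp := hR j.1
    have h1 : |bump j.1 v - bump j.1 w| * R j.1 ≤ dist v w := by
      refine le_trans (mul_le_mul_of_nonneg_right (levelBump_lip _ _ _) hRp.le) ?_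
      rw [← sub_div, abs_div, abs_of_pos (mul_pos (by positivity) hRp)]
      calc 2 * (|ρ v - ρ w| / (2 ^ L * R j.1)) * R j.1 = 2 / 2 ^ L * |ρ v - ρ w| := by field_simp
        _ ≤ 1 * dist v w := by
            refine mul_le_mul ?_ (hρL v w) (abs_nonneg _) zero_le_one
            rw [div_le_one (by positivity)]
            exact le_self_pow₀ one_le_two (by omega)
        _ = _ := one_mul _
    have h2 : |tent (R j.1) (dist v j.2) - tent (R j.1) (dist w j.2)| * R j.1 ≤ dist v w := by
      refine le_trans (mul_le_mul_of_nonneg_right (tent_lip hRp _ _) hRp.le) ?_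
      rw [div_mul_cancel₀ _ hRp.ne']
      exact abs_dist_sub_le v w j.2
    have h3 : |wt j v - wt j w| ≤ |bump j.1 v - bump j.1 w| +
        |tent (R j.1) (dist v j.2) - tent (R j.1) (dist w j.2)| := by
      simp only [wt]
      rw [show bump j.1 v * tent (R j.1) (dist v j.2) - bump j.1 w * tent (R j.1) (dist w j.2) =
        (bump j.1 v - bump j.1 w) * tent (R j.1) (dist v j.2) +
          bump j.1 w * (tent (R j.1) (dist v j.2) - tent (R j.1) (dist w j.2)) by ring]
      refine (abs_add_le _ _).trans (add_le_add ?_ ?_)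
      · rw [abs_mul]
        refine mul_le_of_le_one_right (abs_nonneg _) ?_
        rw [abs_of_nonneg (tent_nonneg _ _)]; exact tent_le_one _ _
      · rw [abs_mul]
        refine mul_le_of_le_one_left (abs_nonneg _) ?_
        rw [abs_of_nonneg (levelBump_nonneg _ _)]; exact levelBump_le_one _ _
    have := mul_le_mul_of_nonneg_right h3 hRp.le
    linarith
  have hglip : ∀ j v w, ‖g j v - g j w‖ ≤ 3 * CE * dist v w := by
    intro j v w
    have hD : 0 ≤ dist v w := dist_nonneg
    have hRp := hR j.1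
    by_cases hv : 0 < wt j v
    · by_cases hw : 0 < wt j w
      · have e : g j v - g j w = (wt j v - wt j w) • E j v + wt j w • (E j v - E j w) := by
          simp only [g, sub_smul, smul_sub]; abel
        rw [e]
        refine (norm_add_le _ _).trans ?_
        rw [norm_smul, norm_smul, Real.norm_eq_abs, Real.norm_of_nonneg (hwt0 _ _)]
        have h1 : |wt j v - wt j w| * ‖E j v‖ ≤ 2 * CE * dist v w := by
          calc |wt j v - wt j w| * ‖E j v‖ ≤ |wt j v - wt j w| * (CE * R j.1) := by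
                gcongr; exact hEn j v (hwtpos j v hv).1
            _ = CE * (|wt j v - wt j w| * R j.1) := by ring
            _ ≤ CE * (2 * dist v w) := mul_le_mul_of_nonneg_left (hwlip j v w) hCE
            _ = _ := by ring
        have h2 : wt j w * ‖E j v - E j w‖ ≤ 1 * (CE * dist v w) :=
          mul_le_mul (hwt1 _ _) (hEu j v w (hwtpos j v hv).1 (hwtpos j w hw).1) (norm_nonneg _)
            zero_le_one
        linarith
      · rw [hgz j w hw, sub_zero]
        simp only [g]
        rw [norm_smul, Real.norm_of_nonneg (hwt0 _ _)]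
        have hw0 : wt j w = 0 := le_antisymm (le_of_not_gt hw) (hwt0 _ _)
        calc wt j v * ‖E j v‖ ≤ wt j v * (CE * R j.1) := by
              gcongr
              exact hEn j v (hwtpos j v hv).1
          _ = CE * (|wt j v - wt j w| * R j.1) := by
              rw [hw0, sub_zero, abs_of_nonneg (hwt0 _ _)]; ring
          _ ≤ CE * (2 * dist v w) := mul_le_mul_of_nonneg_left (hwlip j v w) hCE
          _ ≤ _ := by nlinarith
    · rw [hgz j v hv, zero_sub, norm_neg]
      by_cases hw : 0 < wt j w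
      · simp only [g]
        rw [norm_smul, Real.norm_of_nonneg (hwt0 _ _)]
        have hv0 : wt j v = 0 := le_antisymm (le_of_not_gt hv) (hwt0 _ _)
        calc wt j w * ‖E j w‖ ≤ wt j w * (CE * R j.1) := by
              gcongr
              exact hEn j w (hwtpos j w hw).1
          _ = CE * (|wt j v - wt j w| * R j.1) := by
              rw [hv0, zero_sub, abs_neg, abs_of_nonneg (hwt0 _ _)]; ring
          _ ≤ CE * (2 * dist v w) := mul_le_mul_of_nonneg_left (hwlip j v w) hCE
          _ ≤ _ := by nlinarith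
      · rw [hgz j w hw, norm_zero]; positivity
  have hsame : ∀ (v w : V) (j j' : ℤ × V), j ∈ Pairs → j' ∈ Pairs → key j = key j' →
      0 < wt j v → 0 < wt j' w → |lg v - lg w| ≤ 1 →
      dist j.2 j'.2 ≤ 8 * R j.1 ∨ j'.1 ≠ j.1 → j = j' := by
    intro v w j j' hj hj' hk hv hw hvw hd
    have hr1 := hrange _ _ (hwtpos j v hv).2
    have hr2 := hrange _ _ (hwtpos j' w hw).2
    rw [abs_le] at hvw
    have ha : j.1 = j'.1 := hres _ _ (congrArg Prod.fst hk) (abs_lt.2 ⟨by omega, by omega⟩)
    have hd' : dist j.2 j'.2 ≤ 8 * R j.1 := hd.resolve_right (fun h => h ha.symm)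
    refine Prod.ext ha ?_
    by_contra hne
    have hc := congrArg Prod.snd hk
    simp only [key] at hc
    simp only [Pairs, Finset.mem_filter] at hj hj'
    have hj'2 : j'.2 ∈ Z j.1 := by rw [ha]; exact hj'.2
    rw [← ha] at hc
    exact hcol j.1 j.2 hj.2 j'.2 hj'2 hne hd' hc
  have hone : ∀ v r, ((Pairs.filter fun j => key j = r).filter fun j => 0 < wt j v).card ≤ 1 := by
    intro v r
    rw [Finset.card_le_one]
    intro j hj j' hj'
    simp only [Finset.mem_filter] at hj hj'
    refine hsame v v j j' hj.1.1 hj'.1.1 (hj.1.2.trans hj'.1.2.symm) hj.2 hj'.2 (by simp) ?_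
    by_cases ha : j'.1 = j.1
    · left
      have h1 := (hwtpos j v hj.2).1.1
      have h2 := (hwtpos j' v hj'.2).1.1
      rw [ha] at h2
      linarith [dist_triangle_left j.2 j'.2 v]
    · exact Or.inr ha
  set K : ℕ := (L + 10) * M with hK
  have hKpos : (0 : ℝ) < K := by
    have : 0 < K := by positivity
    exact_mod_cast this
  set sc : ℝ := (1 / (K : ℝ)) ^ p⁻¹ with hsc
  have hscp : sc ^ p = 1 / (K : ℝ) := Real.rpow_inv_rpow (by positivity) hp0.ne'
  let G0 : V → Ell p ((Fin (L + 10) × Fin M) × Fin dE) := fun v =>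
    WithLp.toLp _ fun x => sc * comp x.1 v x.2
  have hG0 : ∀ v w, ‖G0 v - G0 w‖ ^ p = 1 / (K : ℝ) * ∑ r, ‖comp r v - comp r w‖ ^ p := by
    intro v w
    rw [norm_rpow_eq, Fintype.sum_prod_type, Finset.mul_sum]
    refine Finset.sum_congr rfl fun r _ => ?_
    rw [norm_rpow_eq (comp r v - comp r w), Finset.mul_sum]
    refine Finset.sum_congr rfl fun i _ => ?_
    simp only [G0, PiLp.sub_apply]
    rw [← mul_sub, abs_mul, Real.mul_rpow (abs_nonneg _) (abs_nonneg _),
      abs_of_nonneg (Real.rpow_nonneg (by positivity) _), hscp]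
  obtain ⟨e⟩ : Nonempty ((Fin (L + 10) × Fin M) × Fin dE ≃ Fin ((L + 10) * M * dE)) :=
    ⟨Fintype.equivFinOfCardEq (by simp)⟩
  refine ⟨(L + 10) * M * dE, fun v => pad e.toEmbedding (G0 v), le_rfl, fun v w => ?_,
    fun v w hg hv hw => ?_⟩
  · rw [pad_sub, norm_pad]
    refine (Real.rpow_le_rpow_iff (norm_nonneg _) (by positivity) hp0).1 ?_
    rw [hG0]
    have hr : ∀ r, ‖comp r v - comp r w‖ ≤ 6 * CE * dist v w := by
      intro r
      set U := (Pairs.filter fun j => key j = r).filter fun j => 0 < wt j v ∨ 0 < wt j w with hU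
      have e1 : comp r v - comp r w = ∑ j ∈ U, (g j v - g j w) := by
        simp only [comp, ← Finset.sum_sub_distrib]
        symm
        refine Finset.sum_subset (Finset.filter_subset _ _) fun j hj hj' => ?_
        simp only [hU, Finset.mem_filter] at hj'
        push Not at hj'
        obtain ⟨h1, h2⟩ := hj' (Finset.mem_filter.1 hj)
        rw [hgz j v h1.not_gt, hgz j w h2.not_gt, sub_zero]
      have hc : U.card ≤ 2 := by
        rw [hU, Finset.filter_or]
        exact (Finset.card_union_le _ _).trans (add_le_add (hone v r) (hone w r))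
      rw [e1]
      refine (norm_sum_le _ _).trans ((Finset.sum_le_sum fun j _ => hglip j v w).trans ?_)
      simp only [Finset.sum_const, nsmul_eq_mul]
      have hc' : (U.card : ℝ) ≤ 2 := by exact_mod_cast hc
      have := mul_le_mul_of_nonneg_right hc' (show (0 : ℝ) ≤ 3 * CE * dist v w by positivity)
      linarith
    calc 1 / (K : ℝ) * ∑ r, ‖comp r v - comp r w‖ ^ p
        ≤ 1 / (K : ℝ) * ∑ _r : Fin (L + 10) × Fin M, (6 * CE * dist v w) ^ p := by
          gcongr with r
          exact hr r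
      _ = _ := by
          simp only [Finset.sum_const, Finset.card_univ, Fintype.card_prod, Fintype.card_fin,
            nsmul_eq_mul, ← hK]
          field_simp
  · rw [pad_sub, norm_pad]
    set D := dist v w with hD
    have hD0 : 0 ≤ D := dist_nonneg
    set m := min (ρ v) (ρ w) with hm
    have hm0 : 0 < m := lt_min (hρ v) (hρ w)
    have hDm : (2 : ℝ) ^ (3 * L) * D ≤ 3 * m := by
      rcases min_cases (ρ v) (ρ w) with ⟨h, -⟩ | ⟨h, -⟩ <;> rw [hm, h]
      · exact hv
      · exact hw
    set b := Int.log 2 m with hb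
    have hb1 : (2 : ℝ) ^ b ≤ m := by exact_mod_cast Int.zpow_log_le_self one_lt_two hm0
    have hb2 : m < (2 : ℝ) ^ b * 2 := by
      have := Int.lt_zpow_succ_log_self (R := ℝ) one_lt_two m
      rw [← hb] at this
      push_cast at this
      rwa [zpow_add_one₀ two_ne_zero] at this
    have hsmallD : D ≤ m / 2 := by
      have : (2 : ℝ) ^ 3 ≤ 2 ^ (3 * L) := pow_le_pow_right₀ one_le_two (by omega)
      have := mul_le_mul_of_nonneg_right this hD0
      linarith
    have hmax : ∀ y, y = v ∨ y = w → m ≤ ρ y ∧ ρ y ≤ (2 : ℝ) ^ b * 4 := by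
      intro y hy
      have := abs_le.1 (hρL v w)
      rcases min_cases (ρ v) (ρ w) with ⟨h, h'⟩ | ⟨h, h'⟩ <;> rw [← hm] at h <;>
        rcases hy with rfl | rfl <;> constructor <;> linarith
    let a : Fin (L - 1) → ℤ := fun i => b + 2 - 2 * L + (i : ℕ)
    have hfull : ∀ i y, y = v ∨ y = w → bump (a i) y = 1 := by
      intro i y hy
      obtain ⟨h1, h2⟩ := hmax y hy
      have hpos : 0 < 2 ^ L * R (a i) := mul_pos (by positivity) (hR _)
      have hi := i.isLt
      refine levelBump_eq_one ?_ ?_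
      · rw [le_div_iff₀ hpos, one_mul, hzp]
        refine le_trans ?_ (hb1.trans h1)
        exact zpow_le_zpow_right₀ one_le_two (by simp only [a]; omega)
      · rw [div_le_iff₀ hpos, hzp, hzp]
        refine h2.trans ?_
        rw [show (4 : ℝ) = (2 : ℝ) ^ (2 : ℤ) by norm_num, ← zpow_add₀ two_ne_zero]
        exact zpow_le_zpow_right₀ one_le_two (by simp only [a]; omega)
    have hDR : ∀ i, D ≤ R (a i) := by
      intro i
      have h1 : D ≤ 6 * (2 : ℝ) ^ b / 2 ^ (3 * L) := by
        rw [le_div_iff₀ (by positivity)]; linarith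
      refine h1.trans ?_
      rw [div_le_iff₀ (by positivity)]
      calc 6 * (2 : ℝ) ^ b ≤ (2 : ℝ) ^ (b + 3) := by
            rw [zpow_add₀ two_ne_zero]
            have : (0 : ℝ) < (2 : ℝ) ^ b := zpow_pos two_pos b
            norm_num; linarith
        _ ≤ (2 : ℝ) ^ (a i + ((3 * L : ℕ) : ℤ)) :=
            zpow_le_zpow_right₀ one_le_two (by simp only [a]; omega)
        _ = _ := by rw [zpow_add₀ two_ne_zero, zpow_natCast]
    set Gd := Finset.univ.filter fun i : Fin (L - 1) => v ∈ Good (a i) with hGd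
    have hbad : 2 * (Finset.univ.filter fun i : Fin (L - 1) => v ∉ Good (a i)).card ≤ L := by
      let F : ℕ → ℝ := fun i => Real.log (N v ((2 : ℝ) ^ (b + 2 - 2 * L + i)))
      have hF0 : ∀ i, 1 ≤ N v ((2 : ℝ) ^ (b + 2 - 2 * L + (i : ℕ) : ℤ)) := fun i =>
        hN1 v _ (zpow_nonneg zero_le_two _)
      have hFm : Monotone F := fun i i' hii => by
        refine Real.log_le_log (Nat.cast_pos.2 (hF0 i)) (Nat.cast_le.2 (Finset.card_le_card ?_))
        intro t ht
        simp only [Finset.mem_filter, Finset.mem_univ, true_and] at ht ⊢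
        exact ht.trans (zpow_le_zpow_right₀ one_le_two (by omega))
      have hsh := sum_shift_le hFm (L - 1) 5
      rw [← Fin.sum_univ_eq_sum_range (fun i => F (i + 5) - F i) (L - 1)] at hsh
      set B := Finset.univ.filter fun i : Fin (L - 1) => v ∉ Good (a i)
      have hlow : (B.card : ℝ) * Real.log M ≤ ∑ i : Fin (L - 1), (F ((i : ℕ) + 5) - F i) := by
        calc (B.card : ℝ) * Real.log M = ∑ _i ∈ B, Real.log M := by simp
          _ ≤ ∑ i ∈ B, (F ((i : ℕ) + 5) - F i) := by
              refine Finset.sum_le_sum fun i hi => ?_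
              simp only [B, Good, Finset.mem_filter, Finset.mem_univ, true_and, not_le] at hi
              rw [le_sub_iff_add_le,
                ← Real.log_mul (by exact_mod_cast hMpos.ne') (Nat.cast_ne_zero.2 (Nat.one_le_iff_ne_zero.1 (hF0 i)))]
              refine Real.log_le_log (mul_pos (by exact_mod_cast hMpos)
                (Nat.cast_pos.2 (hF0 i))) ?_
              have e : b + 2 - 2 * (L : ℤ) + (((i : ℕ) + 5 : ℕ) : ℤ) = 5 + a i := by
                simp only [a]; push_cast; ring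
              rw [e]
              have h32 : (2 : ℝ) ^ (5 + a i) = 32 * R (a i) := by
                rw [zpow_add₀ two_ne_zero]; norm_num [R]
              rw [h32]
              exact_mod_cast hi.le
          _ ≤ _ := Finset.sum_le_sum_of_subset_of_nonneg (Finset.subset_univ _)
              fun i _ _ => sub_nonneg.2 (hFm (by omega))
      have hlogn : F (L - 1 + 5) - F 0 ≤ ((Lam * L : ℕ) : ℝ) * Real.log 2 := by
        have h1 : 0 ≤ F 0 := Real.log_nonneg (Nat.one_le_cast.2 (hF0 0))
        have h2 : F (L - 1 + 5) ≤ Real.log ((2 : ℝ) ^ (Lam * L)) := by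
          refine Real.log_le_log (Nat.cast_pos.2 (hF0 _)) ?_
          exact_mod_cast (Finset.card_le_univ _).trans hn
        rw [Real.log_pow] at h2
        linarith
      have hlogM : Real.log M = ((10 * Lam : ℕ) : ℝ) * Real.log 2 := by
        rw [hM]; push_cast; rw [Real.log_pow]; push_cast; ring
      have hl2 : 0 < Real.log 2 := Real.log_pos one_lt_two
      have key' : (B.card : ℝ) * ((10 * Lam : ℕ) : ℝ) ≤ 5 * ((Lam * L : ℕ) : ℝ) := by
        refine le_of_mul_le_mul_right ?_ hl2
        have := hlow.trans hsh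
        rw [hlogM] at this
        push_cast at this hlogn ⊢
        linarith
      have key2 : B.card * (10 * Lam) ≤ 5 * (Lam * L) := by exact_mod_cast key'
      have key3 : (2 * B.card) * (5 * Lam) ≤ L * (5 * Lam) := by linarith
      exact Nat.le_of_mul_le_mul_right key3 (by omega)
    have hgoodcount : L + 10 ≤ 6 * Gd.card := by
      have := Finset.card_filter_add_card_filter_not (s := (Finset.univ : Finset (Fin (L - 1))))
        (fun i => v ∈ Good (a i))
      rw [Finset.card_univ, Fintype.card_fin] at this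
      simp only [hGd]
      omega
    choose zf hzf hzfd using fun (i : {i // i ∈ Gd}) => hZcov (a i.1) v
      (Finset.mem_filter.1 i.2).2
    have hlgvw : |lg v - lg w| ≤ 1 := by
      have : ∀ y, y = v ∨ y = w → b ≤ lg y ∧ lg y ≤ b + 1 := by
        intro y hy
        obtain ⟨h1, h2⟩ := hmax y hy
        obtain ⟨h3, h4⟩ := hlg y
        constructor
        · have h5 : (2 : ℝ) ^ b < (2 : ℝ) ^ (lg y + 1) := lt_of_le_of_lt (hb1.trans h1) h4
          have := (zpow_lt_zpow_iff_right₀ one_lt_two).1 h5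
          omega
        · have h5 : ρ y < (2 : ℝ) ^ (b + 2) := by
            rw [zpow_add₀ two_ne_zero]
            have h6 := abs_le.1 (hρL v w)
            rcases min_cases (ρ v) (ρ w) with ⟨h, h'⟩ | ⟨h, h'⟩ <;> rw [← hm] at h <;>
              rcases hy with rfl | rfl <;> norm_num <;> linarith
          have := (zpow_lt_zpow_iff_right₀ one_lt_two).1 (h3.trans_lt h5)
          omega
      have hv' := this v (Or.inl rfl)
      have hw' := this w (Or.inr rfl)
      rw [abs_le]; omega
    let jf : {i // i ∈ Gd} → ℤ × V := fun i => (a i.1, zf i)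
    have hjf : ∀ i, jf i ∈ Pairs ∧ wt (jf i) v = 1 ∧ wt (jf i) w = 1 := by
      intro i
      have h1 := hfull i.1 v (Or.inl rfl)
      have h2 := hfull i.1 w (Or.inr rfl)
      have hRp := hR (a i.1)
      have hd1 : dist v (zf i) ≤ 2 * R (a i.1) := hzfd i
      have hd2 : dist w (zf i) ≤ 3 * R (a i.1) := by
        linarith [dist_triangle w v (zf i), hDR i.1, dist_comm w v]
      refine ⟨Finset.mem_filter.2 ⟨Finset.mem_product.2 ⟨?_, Finset.mem_univ _⟩, hzf i⟩, ?_, ?_⟩
      · have := hrange (a i.1) v (by rw [h1]; exact one_pos)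
        exact Finset.mem_biUnion.2 ⟨v, Finset.mem_univ v, Finset.mem_Icc.2 this⟩
      · simp only [wt, jf, h1, one_mul]; exact tent_eq_one hRp (by linarith)
      · simp only [wt, jf, h2, one_mul]; exact tent_eq_one hRp hd2
    have hcompj : ∀ i y, y = v ∨ y = w → comp (key (jf i)) y = E (jf i) y := by
      intro i y hy
      obtain ⟨hmem, hwv, hww⟩ := hjf i
      have hwy : wt (jf i) y = 1 := by rcases hy with rfl | rfl <;> assumption
      rw [show comp (key (jf i)) y =
        ∑ j ∈ Pairs.filter (fun j => key j = key (jf i)), g j y from rfl,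
        Finset.sum_eq_single (jf i)]
      · simp [g, hwy]
      · intro j hj hne
        rw [Finset.mem_filter] at hj
        refine hgz j y fun hpos => hne ?_
        exact Finset.card_le_one.1 (hone y (key (jf i))) j
          (Finset.mem_filter.2 ⟨Finset.mem_filter.2 hj, hpos⟩) (jf i)
          (Finset.mem_filter.2 ⟨Finset.mem_filter.2 ⟨hmem, rfl⟩, by rw [hwy]; exact one_pos⟩)
      · intro h
        exfalso
        apply h
        exact Finset.mem_filter.2 ⟨hmem, rfl⟩
    have hterm : ∀ i, (D / Cl) ^ p ≤ ‖comp (key (jf i)) v - comp (key (jf i)) w‖ ^ p := by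
      intro i
      rw [hcompj i v (Or.inl rfl), hcompj i w (Or.inr rfl)]
      refine Real.rpow_le_rpow (div_nonneg hD0 hCl.le) ?_ hp0.le
      rw [div_le_iff₀ hCl, mul_comm]
      obtain ⟨-, hwv, hww⟩ := hjf i
      exact hEl (jf i) v w (hwtpos _ _ (by rw [hwv]; exact one_pos)).1
        (hwtpos _ _ (by rw [hww]; exact one_pos)).1 hg
    have hinj : Function.Injective fun i => key (jf i) := by
      intro i i' h
      have hr := congrArg Prod.fst h
      simp only [key, jf] at hr
      have hi := i.1.isLt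
      have hi' := i'.1.isLt
      have := hres _ _ hr (abs_lt.2 ⟨by simp only [a]; omega, by simp only [a]; omega⟩)
      simp only [a] at this
      exact Subtype.ext (Fin.ext (by omega))
    have hsum : (Gd.card : ℝ) * (D / Cl) ^ p ≤ ∑ r, ‖comp r v - comp r w‖ ^ p := by
      calc (Gd.card : ℝ) * (D / Cl) ^ p = ∑ _i : {i // i ∈ Gd}, (D / Cl) ^ p := by simp
        _ ≤ ∑ i : {i // i ∈ Gd}, ‖comp (key (jf i)) v - comp (key (jf i)) w‖ ^ p :=
            Finset.sum_le_sum fun i _ => hterm i
        _ = ∑ r ∈ (Finset.univ : Finset {i // i ∈ Gd}).image (fun i => key (jf i)),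
              ‖comp r v - comp r w‖ ^ p := by
            rw [Finset.sum_image fun x _ y _ h => hinj h]
        _ ≤ _ := Finset.sum_le_sum_of_subset_of_nonneg (Finset.subset_univ _)
            fun r _ _ => Real.rpow_nonneg (norm_nonneg _) _
    have h6M : (1 : ℝ) ≤ 6 * (M : ℝ) := by
      have : (1 : ℝ) ≤ M := by exact_mod_cast hMpos
      linarith
    have hmain : (D / Cl) ^ p ≤ (6 * (M : ℝ) * ‖G0 v - G0 w‖) ^ p := by
      rw [Real.mul_rpow (by linarith) (norm_nonneg _), hG0]
      have h1 : 6 * (M : ℝ) ≤ (6 * (M : ℝ)) ^ p := Real.self_le_rpow_of_one_le h6M hp1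
      have h2 : (K : ℝ) ≤ 6 * M * Gd.card := by
        rw [hK]
        calc (((L + 10) * M : ℕ) : ℝ) ≤ ((6 * Gd.card * M : ℕ) : ℝ) :=
              Nat.cast_le.2 (Nat.mul_le_mul_right M hgoodcount)
          _ = _ := by push_cast; ring
      have hX : 0 ≤ (D / Cl) ^ p := Real.rpow_nonneg (div_nonneg hD0 hCl.le) _
      calc (D / Cl) ^ p ≤ 6 * M * (1 / (K : ℝ) * ((Gd.card : ℝ) * (D / Cl) ^ p)) := by
            rw [show 6 * (M : ℝ) * (1 / (K : ℝ) * ((Gd.card : ℝ) * (D / Cl) ^ p)) =
              6 * M * Gd.card / K * (D / Cl) ^ p by ring]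
            refine le_mul_of_one_le_left hX ?_
            rw [le_div_iff₀ hKpos, one_mul]; exact h2
        _ ≤ _ := mul_le_mul h1
            (mul_le_mul_of_nonneg_left hsum (by positivity)) (by positivity) (by positivity)
    have h := (Real.rpow_le_rpow_iff (div_nonneg hD0 hCl.le) (by positivity) hp0).1 hmain
    rw [div_le_iff₀ hCl] at h
    have hMc : (M : ℝ) = 2 ^ (10 * Lam) := by simp [hM]
    calc D ≤ 6 * (M : ℝ) * ‖G0 v - G0 w‖ * Cl := h
      _ = 6 * (M : ℝ) * Cl * ‖G0 v - G0 w‖ := by ring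
      _ = _ := by rw [← hMc]

end Vale.Agent.P249.Sub
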