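import Vale.Agent.P249.Sub.Pieces
import Vale.Agent.P249.Sub.Bernoulli
import Vale.Agent.P249.Sub.Hash

/-!
Embedding a bounded set at one scale into few coordinates, up to a small additive error.
-/

namespace Vale.Agent.P249.Sub

open Finset

variable {p : ℝ} [hp : Fact (1 ≤ ENNReal.ofReal p)]

/-- Constant in the dimension bound of the fixed-scale lift. -/
noncomputable def liftConst (p : ℝ) : ℝ :=
  64 * (2 * (4 : ℝ) ^ p * 8 ^ p * 6 * (3 * (1 + 2 ^ (p + 1)) / 2 + 1) + 8)

lemma liftConst_pos (p : ℝ) : 0 < liftConst p := by unfold liftConst; positivity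

lemma lift_aux {U I : Type*} [Fintype U] [Fintype I] (u : U → Ell p I) (hu : ∀ x, ‖u x‖ ≤ 1)
    {θ : ℝ} (hθ : 0 < θ) (hθ1 : θ ≤ 1) :
    ∃ (d : ℕ) (ψ : U → Ell p (Fin d)),
      (d : ℝ) ≤ (liftConst p * (1 / θ) ^ p * ((Nat.log 2 (Fintype.card U) : ℝ) + 1))
        ^ (2 * (⌈p⌉₊ + 3)) ∧
      ∀ x y, ‖ψ x - ψ y‖ ≤ 4 * (‖u x - u y‖ + θ) ∧ ‖u x - u y‖ / 32 - θ ≤ ‖ψ x - ψ y‖ := by
  classical
  have hp1 : 1 ≤ p := one_le_p
  have hp0 : 0 < p := by linarith
  set m := Fintype.card U with hm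
  set J := Fintype.card I with hJ
  set s : ℝ := 2 * 4 ^ p * 8 ^ p / θ ^ p * Real.log (8 * (m : ℝ) ^ 2 + 8) with hs
  have hlog : 1 ≤ Real.log (8 * (m : ℝ) ^ 2 + 8) := by
    rw [Real.le_log_iff_exp_le (by positivity)]
    linarith [Real.exp_one_lt_three, sq_nonneg (m : ℝ)]
  have h4 : (1 : ℝ) ≤ 4 ^ p := Real.one_le_rpow (by norm_num) hp0.le
  have h8 : (1 : ℝ) ≤ 8 ^ p := Real.one_le_rpow (by norm_num) hp0.le
  have hθp : θ ^ p ≤ 1 := Real.rpow_le_one hθ.le hθ1 hp0.le
  have hθp0 : 0 < θ ^ p := Real.rpow_pos_of_pos hθ p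
  have hs0 : 2 * Real.log (8 * (m : ℝ) ^ 2 + 8) ≤ s := by
    rw [hs]
    gcongr
    rw [le_div_iff₀ hθp0]
    nlinarith [mul_le_mul h4 h8 zero_le_one (by linarith)]
  have hspos : 0 < s := by linarith
  let q : I × Fin (J + 1) → ℝ := fun f => min 1 (s * brk J (f.2 + 1) ^ p)
  let π : U → I × Fin (J + 1) → ℝ := fun x f => piece J f.2 (u x f.1)
  have hbrk : ∀ a : ℕ, 0 < brk J (a + 1) := fun a => by simp only [brk]; positivity
  have hq0 : ∀ f, 0 < q f := fun f =>
    lt_min one_pos (mul_pos hspos (Real.rpow_pos_of_pos (hbrk _) _))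
  have hq1 : ∀ f, q f ≤ 1 := fun f => min_le_left _ _
  have hcoord : ∀ x i, |u x i| ≤ 1 := fun x i =>
    le_trans (by simpa using PiLp.norm_apply_le (u x) i) (hu x)
  set C1 : ℝ := 1 + 2 ^ (p + 1) with hC1
  let c : (U × U) ⊕ U → I × Fin (J + 1) → ℝ := fun a f =>
    Sum.elim (fun xy => |π xy.1 f - π xy.2 f| ^ p / q f) (fun x => if π x f = 0 then 0 else 1) a
  let Bd : (U × U) ⊕ U → ℝ := Sum.elim (fun _ => 4 ^ p / s) (fun _ => 1)
  let τ : ℝ := (θ / 8) ^ p
  let t : (U × U) ⊕ U → ℝ := Sum.elim (fun _ => τ) (fun _ => s)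
  have hBd : ∀ a, 0 < Bd a := by
    rintro (a | a) <;> simp only [Bd, Sum.elim_inl, Sum.elim_inr] <;> positivity
  have hexp : ∀ a, Real.exp (-(t a / (2 * Bd a))) ≤ 1 / (8 * (m : ℝ) ^ 2 + 8) := by
    intro a
    rw [one_div, ← Real.exp_log (by positivity : (0 : ℝ) < 8 * (m : ℝ) ^ 2 + 8), ← Real.exp_neg]
    refine Real.exp_le_exp.2 (neg_le_neg ?_)
    rcases a with a | a
    · simp only [t, Bd, τ, Sum.elim_inl, Real.div_rpow hθ.le (by norm_num : (0 : ℝ) ≤ 8)]
      rw [le_div_iff₀ (by positivity), hs]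
      field_simp
      exact div_self_le_one _
    · simp only [t, Bd, Sum.elim_inr, mul_one]
      linarith
  obtain ⟨ξ, hξ⟩ := exists_subset (F := I × Fin (J + 1)) (q := q) (fun f => (hq0 f).le) hq1 c
    Bd t
    (by
      rintro (a | a) f
      · exact div_nonneg (Real.rpow_nonneg (abs_nonneg _) _) (hq0 f).le
      · simp only [c, Sum.elim_inr]; split <;> norm_num)
    (by
      rintro (a | a) f hf
      · simp only [c, Bd, Sum.elim_inl]
        have hqe : q f = s * brk J (f.2 + 1) ^ p :=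
          min_eq_right ((min_lt_iff.1 hf).resolve_left (lt_irrefl _)).le
        rw [hqe, div_le_div_iff₀ (mul_pos hspos (Real.rpow_pos_of_pos (hbrk _) _)) hspos]
        have h : |π a.1 f - π a.2 f| ≤ 4 * brk J (f.2 + 1) := by
          refine (abs_sub _ _).trans ?_
          linarith [abs_piece_le J f.2 (u a.1 f.1), abs_piece_le J f.2 (u a.2 f.1)]
        have h' := Real.rpow_le_rpow (abs_nonneg _) h hp0.le
        rw [Real.mul_rpow (by norm_num) (hbrk _).le] at h'
        nlinarith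
      · simp only [c, Bd, Sum.elim_inr]; split <;> norm_num)
    hBd (by
      calc 2 * ∑ a, Real.exp (-(t a / (2 * Bd a)))
          ≤ 2 * ∑ _a : (U × U) ⊕ U, 1 / (8 * (m : ℝ) ^ 2 + 8) := by gcongr with a; exact hexp a
        _ < 1 := by
          simp only [Finset.sum_const, Finset.card_univ, Fintype.card_sum, Fintype.card_prod,
            nsmul_eq_mul, Nat.cast_add, Nat.cast_mul, ← hm]
          rw [mul_one_div, mul_div_assoc', div_lt_one (by positivity)]
          nlinarith [sq_nonneg ((m : ℝ) - 1)])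
  have hμup : ∀ x, ∑ f, q f * c (Sum.inr x) f ≤ s * C1 := by
    intro x
    calc ∑ f, q f * c (Sum.inr x) f
        ≤ ∑ f : I × Fin (J + 1), s * (if π x f = 0 then 0 else brk J (f.2 + 1) ^ p) := by
          refine Finset.sum_le_sum fun f _ => ?_
          simp only [c, Sum.elim_inr]
          split
          · simp
          · rw [mul_one]; exact min_le_right _ _
      _ = s * ∑ i : I, ∑ a ∈ range (J + 1),
            (if piece J a (u x i) = 0 then 0 else brk J (a + 1) ^ p) := by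
          rw [← Finset.mul_sum, Fintype.sum_prod_type]
          simp only [π]
          congr 1
          exact Finset.sum_congr rfl fun i _ => Fin.sum_univ_eq_sum_range
            (fun a => if piece J a (u x i) = 0 then 0 else brk J (a + 1) ^ p) (J + 1)
      _ ≤ s * ∑ i : I, ((1 / 2 ^ J : ℝ) ^ p + 2 ^ (p + 1) * |u x i| ^ p) := by
          gcongr with i
          exact piece_support hp1
      _ ≤ s * C1 := by
          gcongr
          rw [Finset.sum_add_distrib, ← Finset.mul_sum, ← norm_rpow_eq, hC1]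
          refine add_le_add ?_ ?_
          · rw [Finset.sum_const, Finset.card_univ, ← hJ, nsmul_eq_mul]
            have h1 : (1 / 2 ^ J : ℝ) ^ p ≤ 1 / 2 ^ J :=
              Real.rpow_le_self_of_le_one (by positivity)
                (by rw [div_le_one (by positivity)]; exact one_le_pow₀ one_le_two) hp1
            have h2 : (J : ℝ) ≤ 2 ^ J := by exact_mod_cast Nat.lt_two_pow_self.le
            calc (J : ℝ) * (1 / 2 ^ J : ℝ) ^ p ≤ (J : ℝ) * (1 / 2 ^ J) := by gcongr
              _ ≤ 1 := by rw [mul_one_div, div_le_one (by positivity)]; exact h2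
          · exact mul_le_of_le_one_right (by positivity)
              (Real.rpow_le_one (norm_nonneg _) (hu x) hp0.le)
  set S0 := ⌈s * (3 * C1 / 2 + 1)⌉₊ with hS0
  let F' := {f : I × Fin (J + 1) // ξ f = true ∧ ∃ x, π x f ≠ 0}
  let v : U → F' → ℝ := fun x f => π x f.1 * (1 / q f.1) ^ p⁻¹
  have hsuppF : ∀ x,
      (Finset.univ.filter fun f => ξ f = true ∧ π x f ≠ 0).card ≤ S0 := by
    intro x
    have h := (hξ (Sum.inr x)).2
    have he : bcount (c (Sum.inr x)) ξ =
        ((Finset.univ.filter fun f => ξ f = true ∧ π x f ≠ 0).card : ℝ) := by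
      rw [Finset.card_filter, Nat.cast_sum]
      refine Finset.sum_congr rfl fun f _ => ?_
      simp only [c, Sum.elim_inr]
      cases ξ f <;> by_cases h0 : π x f = 0 <;> simp [h0]
    have := hμup x
    simp only [t, Sum.elim_inr] at h
    rw [he] at h
    exact Nat.cast_le.1 (le_trans (le_trans h (by linarith)) (Nat.le_ceil _))
  have hsupp : ∀ x, (Finset.univ.filter fun f : F' => v x f ≠ 0).card ≤ S0 := by
    intro x
    refine le_trans (Finset.card_le_card_of_injOn (fun f => f.1) ?_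
      Subtype.val_injective.injOn) (hsuppF x)
    intro f hf
    simp only [Finset.coe_filter, Finset.mem_univ, true_and, Set.mem_ofPred_eq] at hf ⊢
    exact ⟨f.2.1, fun h0 => hf (by simp [v, h0])⟩
  have hcardF : Fintype.card F' ≤ 2 ^ (Nat.log 2 m + 1 + S0) := by
    rw [Fintype.card_subtype]
    refine le_trans (Finset.card_le_card (t := Finset.univ.biUnion fun x =>
      Finset.univ.filter fun f => ξ f = true ∧ π x f ≠ 0) ?_) ?_
    · intro f hf
      simp only [Finset.mem_filter, Finset.mem_univ, true_and] at hf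
      obtain ⟨h1, x, hx⟩ := hf
      exact Finset.mem_biUnion.2 ⟨x, Finset.mem_univ x, by simp [h1, hx]⟩
    · refine (Finset.card_biUnion_le_card_mul _ _ S0 fun x _ => hsuppF x).trans ?_
      rw [Finset.card_univ, ← hm, pow_add]
      exact Nat.mul_le_mul (Nat.lt_pow_succ_log_self one_lt_two m).le Nat.lt_two_pow_self.le
  obtain ⟨d, H, hd, hH⟩ := exists_hash (p := p) v (p' := ⌈p⌉₊) (Nat.le_ceil p) hsupp hcardF
  refine ⟨d, H, ?_, fun x y => ?_⟩
  · have hLm : Real.log (8 * (m : ℝ) ^ 2 + 8) ≤ 6 * ((Nat.log 2 m : ℝ) + 1) := by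
      have h1 : (m : ℝ) ≤ (2 : ℝ) ^ (Nat.log 2 m + 1) := by
        exact_mod_cast (Nat.lt_pow_succ_log_self one_lt_two m).le
      have h2 : 8 * (m : ℝ) ^ 2 + 8 ≤ (2 : ℝ) ^ (2 * (Nat.log 2 m + 1) + 4) := by
        rw [pow_add, pow_mul']
        have h3 : (1 : ℝ) ≤ 2 ^ (Nat.log 2 m + 1) := one_le_pow₀ one_le_two
        nlinarith
      refine (Real.log_le_log (by positivity) h2).trans ?_
      rw [Real.log_pow]
      push_cast
      nlinarith [Real.log_two_lt_d9, Real.log_two_gt_d9, Nat.cast_nonneg (α := ℝ) (Nat.log 2 m)]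
    set Lm := (Nat.log 2 m : ℝ) + 1 with hLmdef
    have hLm1 : 1 ≤ Lm := by simp [hLmdef]
    set K := (1 / θ) ^ p * Lm with hK
    have hK1 : 1 ≤ K := one_le_mul_of_one_le_of_one_le
      (Real.one_le_rpow (by rw [le_div_iff₀ hθ]; linarith) hp0.le) hLm1
    have hsK : s ≤ 2 * 4 ^ p * 8 ^ p * 6 * K := by
      rw [hs, hK, Real.div_rpow zero_le_one hθ.le, Real.one_rpow]
      calc 2 * 4 ^ p * 8 ^ p / θ ^ p * Real.log (8 * (m : ℝ) ^ 2 + 8)
          ≤ 2 * 4 ^ p * 8 ^ p / θ ^ p * (6 * Lm) := by gcongr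
        _ = _ := by ring
    have hLmK : Lm ≤ K := le_mul_of_one_le_left (by linarith)
      (Real.one_le_rpow (by rw [le_div_iff₀ hθ]; linarith) hp0.le)
    have hS0K : (S0 : ℝ) ≤ (2 * 4 ^ p * 8 ^ p * 6 * (3 * C1 / 2 + 1) + 1) * K := by
      have hc : 0 ≤ s * (3 * C1 / 2 + 1) := by
        have : 0 ≤ C1 := by rw [hC1]; positivity
        positivity
      have h5 := (Nat.ceil_lt_add_one hc).le
      rw [← hS0] at h5
      have hC0 : (0 : ℝ) ≤ 3 * C1 / 2 + 1 := by rw [hC1]; positivity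
      have := mul_le_mul_of_nonneg_right hsK hC0
      linarith
    set P := ⌈p⌉₊ with hP
    have hbig : (2 * S0 + 2 : ℝ) ≤ liftConst p * K / 8 ∧
        ((Nat.log 2 m + 1 + S0 : ℕ) : ℝ) + 1 ≤ liftConst p * K / 8 := by
      have hC0 : (0 : ℝ) ≤ 2 * 4 ^ p * 8 ^ p * 6 * (3 * C1 / 2 + 1) * K := by
        rw [hC1]; positivity
      have hl : liftConst p = 64 * (2 * 4 ^ p * 8 ^ p * 6 * (3 * C1 / 2 + 1) + 8) := by
        rw [liftConst, hC1]
      rw [hl]
      push_cast
      constructor <;> nlinarith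
    have hd' : (d : ℝ) ≤ (8 * ((2 * S0 + 2 : ℝ) ^ (P + 2) *
        (((Nat.log 2 m + 1 + S0 : ℕ) : ℝ) + 1))) ^ 2 := by exact_mod_cast hd
    refine hd'.trans ?_
    rw [show 2 * (P + 3) = (P + 3) * 2 by ring, pow_mul, mul_assoc, ← hK]
    refine pow_le_pow_left₀ (by positivity) ?_ 2
    have hl0 : 0 ≤ liftConst p * K := mul_nonneg (liftConst_pos p).le (by linarith)
    calc 8 * ((2 * S0 + 2 : ℝ) ^ (P + 2) * (((Nat.log 2 m + 1 + S0 : ℕ) : ℝ) + 1))
        ≤ 8 * ((liftConst p * K / 8) ^ (P + 2) * (liftConst p * K / 8)) := by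
          gcongr
          · exact hbig.1
          · exact hbig.2
      _ = 8 / 8 ^ (P + 3) * (liftConst p * K) ^ (P + 3) := by
          rw [← pow_succ, div_pow]; ring
      _ ≤ 1 * (liftConst p * K) ^ (P + 3) := by
          gcongr
          rw [div_le_one (by positivity)]
          exact le_self_pow₀ (by norm_num) (by omega)
      _ = _ := one_mul _
  · obtain ⟨h1, h2⟩ := hH x y
    obtain ⟨g1, g2⟩ := hξ (Sum.inl (x, y))
    set X := ∑ f : F', |v x f - v y f| ^ p with hX
    have hXe : bcount (c (Sum.inl (x, y))) ξ = X := by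
      rw [hX, ← Finset.sum_subtype (Finset.univ.filter fun f => ξ f = true ∧ ∃ x, π x f ≠ 0)
        (by simp) (fun f => |π x f * (1 / q f) ^ p⁻¹ - π y f * (1 / q f) ^ p⁻¹| ^ p),
        Finset.sum_filter, bcount]
      refine Finset.sum_congr rfl fun f _ => ?_
      simp only [c, Sum.elim_inl]
      by_cases hz : ∃ x, π x f ≠ 0
      · have hb : (ξ f = true ∧ ∃ x, π x f ≠ 0) ↔ ξ f = true := ⟨fun h => h.1, fun h => ⟨h, hz⟩⟩
        simp only [hb]
        split
        · rw [← sub_mul, abs_mul, Real.mul_rpow (abs_nonneg _) (abs_nonneg _),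
            abs_of_nonneg (Real.rpow_nonneg (by have := hq0 f; positivity) _),
            Real.rpow_inv_rpow (by have := hq0 f; positivity) hp0.ne', mul_one_div]
        · rfl
      · push Not at hz
        simp [hz, Real.zero_rpow hp0.ne']
    set μ := ∑ f, q f * c (Sum.inl (x, y)) f with hμ
    have hμe : μ = ∑ i : I, ∑ a ∈ range (J + 1), |piece J a (u x i) - piece J a (u y i)| ^ p := by
      rw [hμ, Fintype.sum_prod_type]
      refine Finset.sum_congr rfl fun i _ => ?_
      rw [← Fin.sum_univ_eq_sum_range (fun a => |piece J a (u x i) - piece J a (u y i)| ^ p)]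
      refine Finset.sum_congr rfl fun a _ => ?_
      simp only [c, Sum.elim_inl, π]
      exact mul_div_cancel₀ _ (hq0 (i, a)).ne'
    set Δ := ‖u x - u y‖ with hΔ
    have hΔp : Δ ^ p = ∑ i, |u x i - u y i| ^ p := by
      rw [hΔ, norm_rpow_eq]; simp [PiLp.sub_apply]
    have hμhi : μ ≤ Δ ^ p := by
      rw [hμe, hΔp]
      exact Finset.sum_le_sum fun i _ => piece_upper hp1 (hcoord x i) (hcoord y i)
    have hμlo : (Δ / 8) ^ p ≤ μ := by
      rw [hμe, Real.div_rpow (norm_nonneg _) (by norm_num), hΔp, Finset.sum_div]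
      refine Finset.sum_le_sum fun i _ => ?_
      rw [← Real.div_rpow (abs_nonneg _) (by norm_num)]
      exact piece_lower hp1 (hcoord x i) (hcoord y i)
    rw [hXe] at g1 g2
    simp only [t, τ, Sum.elim_inl] at g1 g2
    have hτ : 0 ≤ (θ / 8) ^ p := Real.rpow_nonneg (by positivity) _
    have hinv : p⁻¹ ≤ 1 := inv_le_one_of_one_le₀ hp1
    constructor
    · have hb : ‖H x - H y‖ ^ p ≤ (4 * (Δ + θ)) ^ p := by
        have h5 : 4 ≤ (4 : ℝ) ^ p := Real.self_le_rpow_of_one_le (by norm_num) hp1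
        have h6 : Δ ^ p + (θ / 8) ^ p ≤ (Δ + θ) ^ p :=
          (add_le_add le_rfl (Real.rpow_le_rpow (by positivity) (by linarith) hp0.le)).trans
            (Real.add_rpow_le_rpow_add (norm_nonneg _) hθ.le hp1)
        rw [Real.mul_rpow (by norm_num) (add_nonneg (norm_nonneg _) hθ.le)]
        calc ‖H x - H y‖ ^ p ≤ 4 * (Δ ^ p + (θ / 8) ^ p) := by
              have := Real.rpow_nonneg (norm_nonneg (u x - u y)) p
              linarith
          _ ≤ _ := mul_le_mul h5 h6 (add_nonneg (Real.rpow_nonneg (norm_nonneg _) _) hτ)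
              (by positivity)
      exact (Real.rpow_le_rpow_iff (norm_nonneg _) (by positivity) hp0).1 hb
    · rcases le_total (Δ / 32 - θ) 0 with h0 | h0
      · exact h0.trans (norm_nonneg _)
      have hb : (Δ / 32 - θ) ^ p ≤ ‖H x - H y‖ ^ p := by
        have h5 : (Δ / 32) ^ p * 4 ≤ (Δ / 8) ^ p := by
          rw [show Δ / 8 = Δ / 32 * 4 by ring, Real.mul_rpow (by positivity) (by norm_num)]
          exact mul_le_mul_of_nonneg_left (Real.self_le_rpow_of_one_le (by norm_num) hp1)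
            (by positivity)
        have h6 : (Δ / 32 - θ) ^ p + θ ^ p ≤ (Δ / 32) ^ p :=
          (Real.add_rpow_le_rpow_add h0 hθ.le hp1).trans_eq (by ring_nf)
        have h7 : (θ / 8) ^ p ≤ θ ^ p := Real.rpow_le_rpow (by positivity) (by linarith) hp0.le
        linarith
      exact (Real.rpow_le_rpow_iff h0 (norm_nonneg _) hp0).1 hb

/-- The lift, centred: its values are also bounded. -/
theorem exists_lift {U I : Type*} [Fintype U] [Fintype I] (u : U → Ell p I)
    (hu : ∀ x, ‖u x‖ ≤ 1) {θ : ℝ} (hθ : 0 < θ) (hθ1 : θ ≤ 1) :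
    ∃ (d : ℕ) (ψ : U → Ell p (Fin d)),
      (d : ℝ) ≤ (2 * liftConst p * (1 / θ) ^ p * ((Nat.log 2 (Fintype.card U) : ℝ) + 1))
        ^ (2 * (⌈p⌉₊ + 3)) ∧ (∀ x, ‖ψ x‖ ≤ 8) ∧
      ∀ x y, ‖ψ x - ψ y‖ ≤ 4 * (‖u x - u y‖ + θ) ∧ ‖u x - u y‖ / 32 - θ ≤ ‖ψ x - ψ y‖ := by
  classical
  let u' : Option U → Ell p I := fun o => o.elim 0 u
  obtain ⟨d, ψ, hd, hψ⟩ := lift_aux u' (fun o => by cases o <;> simp [u', hu]) hθ hθ1
  refine ⟨d, fun x => ψ (some x) - ψ none, hd.trans ?_, fun x => ?_, fun x y => ?_⟩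
  · have h1 : (Nat.log 2 (Fintype.card (Option U)) : ℝ) + 1 ≤
        2 * ((Nat.log 2 (Fintype.card U) : ℝ) + 1) := by
      have h : Nat.log 2 (Fintype.card (Option U)) ≤ Nat.log 2 (Fintype.card U) + 1 := by
        rw [Fintype.card_option]
        rcases Nat.eq_zero_or_pos (Fintype.card U) with h0 | h0
        · simp [h0]
        · rw [← Nat.log_mul_base one_lt_two h0.ne']
          exact Nat.log_mono_right (by omega)
      have h' : ((Nat.log 2 (Fintype.card (Option U)) : ℕ) : ℝ) ≤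
          ((Nat.log 2 (Fintype.card U) + 1 : ℕ) : ℝ) := by exact_mod_cast h
      push_cast at h'
      linarith [Nat.cast_nonneg (α := ℝ) (Nat.log 2 (Fintype.card U))]
    have := liftConst_pos p
    refine pow_le_pow_left₀ (by positivity) ?_ _
    calc liftConst p * (1 / θ) ^ p * ((Nat.log 2 (Fintype.card (Option U)) : ℝ) + 1)
        ≤ liftConst p * (1 / θ) ^ p * (2 * ((Nat.log 2 (Fintype.card U) : ℝ) + 1)) := by gcongr
      _ = _ := by ring
  · have := (hψ (some x) none).1
    simp only [u', Option.elim, sub_zero] at this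
    linarith [hu x]
  · simpa [u'] using hψ (some x) (some y)

end Vale.Agent.P249.Sub
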