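import Mathlib

/-!
Dyadic layers of a real number.
-/

namespace Vale.Agent.P249.Sub

open Finset

/-- Truncation at height `b`. -/
noncomputable def trunc (b t : ℝ) : ℝ := max (-b) (min b t)

/-- Breakpoints `0, 2^{-J}, 2^{1-J}, ..., 1`. -/
noncomputable def brk (J : ℕ) : ℕ → ℝ
  | 0 => 0
  | a + 1 => 2 ^ a / 2 ^ J

/-- The `a`-th layer. -/
noncomputable def piece (J a : ℕ) (t : ℝ) : ℝ := trunc (brk J (a + 1)) t - trunc (brk J a) t

lemma brk_nonneg (J a : ℕ) : 0 ≤ brk J a := by
  cases a with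
  | zero => simp [brk]
  | succ a => simp only [brk]; positivity

lemma brk_mono_succ (J a : ℕ) : brk J a ≤ brk J (a + 1) := by
  cases a with
  | zero => exact brk_nonneg J 1
  | succ a =>
    simp only [brk]
    gcongr <;> norm_num

lemma brk_succ_le {J a : ℕ} (h : a ≤ J) : brk J (a + 1) ≤ 1 := by
  simp only [brk]
  rw [div_le_one (by positivity)]
  exact pow_le_pow_right₀ one_le_two h

lemma brk_two {J a : ℕ} (h : 1 ≤ a) : brk J (a + 1) = 2 * brk J a := by
  obtain ⟨b, rfl⟩ := Nat.exists_eq_add_of_le' h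
  simp only [brk, pow_succ]; ring

lemma trunc_of_abs_le {b t : ℝ} (h : |t| ≤ b) : trunc b t = t := by
  rw [abs_le] at h
  simp [trunc, h.1, h.2]

lemma trunc_of_ge {b t : ℝ} (hb : 0 ≤ b) (h : b ≤ t) : trunc b t = b := by
  simp [trunc, h, hb]

lemma abs_trunc_le {b : ℝ} (hb : 0 ≤ b) (t : ℝ) : |trunc b t| ≤ b := by
  rw [abs_le]
  exact ⟨le_max_left _ _, max_le (by linarith) (min_le_left _ _)⟩

lemma trunc_zero (t : ℝ) : trunc 0 t = 0 := by
  simpa using abs_trunc_le (le_refl (0 : ℝ)) t

lemma trunc_neg {b : ℝ} (hb : 0 ≤ b) (t : ℝ) : trunc b (-t) = -trunc b t := by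
  simp only [trunc]
  rcases le_total t (-b) with h | h
  · rw [min_eq_left (by linarith : b ≤ -t), min_eq_right (by linarith : t ≤ b),
      max_eq_right (by linarith), max_eq_left h, neg_neg]
  rcases le_total t b with h' | h'
  · rw [min_eq_right (by linarith : -t ≤ b), min_eq_right h', max_eq_right (by linarith),
      max_eq_right h]
  · rw [min_eq_right (by linarith : -t ≤ b), min_eq_left h', max_eq_left (by linarith),
      max_eq_right (by linarith)]

lemma piece_mono (J a : ℕ) {s t : ℝ} (h : s ≤ t) : piece J a s ≤ piece J a t := by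
  have h0 := brk_nonneg J a
  have h1 := brk_mono_succ J a
  simp only [piece, trunc]
  rcases max_cases (-brk J (a+1)) (min (brk J (a+1)) s) with ⟨e1, c1⟩ | ⟨e1, c1⟩ <;>
  rcases max_cases (-brk J (a+1)) (min (brk J (a+1)) t) with ⟨e2, c2⟩ | ⟨e2, c2⟩ <;>
  rcases max_cases (-brk J a) (min (brk J a) s) with ⟨e3, c3⟩ | ⟨e3, c3⟩ <;>
  rcases max_cases (-brk J a) (min (brk J a) t) with ⟨e4, c4⟩ | ⟨e4, c4⟩ <;>
  rcases min_cases (brk J (a+1)) s with ⟨f1, d1⟩ | ⟨f1, d1⟩ <;>
  rcases min_cases (brk J (a+1)) t with ⟨f2, d2⟩ | ⟨f2, d2⟩ <;>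
  rcases min_cases (brk J a) s with ⟨f3, d3⟩ | ⟨f3, d3⟩ <;>
  rcases min_cases (brk J a) t with ⟨f4, d4⟩ | ⟨f4, d4⟩ <;>
  linarith

lemma piece_neg (J a : ℕ) (t : ℝ) : piece J a (-t) = -piece J a t := by
  simp only [piece, trunc_neg (brk_nonneg _ _)]; ring

lemma piece_eq_zero {J a : ℕ} {t : ℝ} (h : |t| ≤ brk J a) : piece J a t = 0 := by
  simp [piece, trunc_of_abs_le h, trunc_of_abs_le (h.trans (brk_mono_succ J a))]

lemma abs_piece_le (J a : ℕ) (t : ℝ) : |piece J a t| ≤ 2 * brk J (a + 1) := by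
  have h1 := abs_trunc_le (brk_nonneg J (a + 1)) t
  have h2 := abs_trunc_le (brk_nonneg J a) t
  have h3 := brk_mono_succ J a
  refine (abs_sub _ _).trans ?_
  linarith

lemma sum_range_piece (J m : ℕ) (t : ℝ) :
    ∑ a ∈ range m, piece J a t = trunc (brk J m) t := by
  simp only [piece]
  rw [Finset.sum_range_sub (fun a => trunc (brk J a) t)]
  simp [show brk J 0 = 0 from rfl, trunc_zero]

lemma sum_piece_eq {J : ℕ} {t : ℝ} (h : |t| ≤ 1) : ∑ a ∈ range (J + 1), piece J a t = t := by
  rw [sum_range_piece, trunc_of_abs_le]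
  simpa [brk] using h

lemma sum_rpow_le_rpow_sum {ι : Type*} (s : Finset ι) {f : ι → ℝ} {p : ℝ} (hp : 1 ≤ p)
    (hf : ∀ i, 0 ≤ f i) : ∑ i ∈ s, f i ^ p ≤ (∑ i ∈ s, f i) ^ p := by
  classical
  induction s using Finset.induction_on with
  | empty => simp [Real.zero_rpow (show p ≠ 0 by linarith)]
  | insert a s ha ih =>
    rw [Finset.sum_insert ha, Finset.sum_insert ha]
    exact (add_le_add le_rfl ih).trans
      (Real.add_rpow_le_rpow_add (hf a) (Finset.sum_nonneg fun i _ => hf i) hp)

lemma piece_upper {J : ℕ} {p x y : ℝ} (hp : 1 ≤ p) (hx : |x| ≤ 1) (hy : |y| ≤ 1) :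
    ∑ a ∈ range (J + 1), |piece J a x - piece J a y| ^ p ≤ |x - y| ^ p := by
  wlog hxy : y ≤ x generalizing x y
  · have := this hy hx (le_of_not_ge hxy)
    simpa [abs_sub_comm] using this
  have hnn : ∀ a, 0 ≤ piece J a x - piece J a y := fun a => sub_nonneg.2 (piece_mono J a hxy)
  calc ∑ a ∈ range (J + 1), |piece J a x - piece J a y| ^ p
      = ∑ a ∈ range (J + 1), (piece J a x - piece J a y) ^ p := by
        simp only [abs_of_nonneg (hnn _)]
    _ ≤ (∑ a ∈ range (J + 1), (piece J a x - piece J a y)) ^ p :=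
        sum_rpow_le_rpow_sum _ hp hnn
    _ = |x - y| ^ p := by
        rw [Finset.sum_sub_distrib, sum_piece_eq hx, sum_piece_eq hy,
          abs_of_nonneg (sub_nonneg.2 hxy)]

lemma piece_lower {J : ℕ} {p x y : ℝ} (hp : 1 ≤ p) (hx : |x| ≤ 1) (hy : |y| ≤ 1) :
    (|x - y| / 8) ^ p ≤ ∑ a ∈ range (J + 1), |piece J a x - piece J a y| ^ p := by
  wlog hxy : |x| ≤ |y| generalizing x y
  · have := this hy hx (le_of_not_ge hxy)
    simpa [abs_sub_comm] using this
  wlog hy0 : 0 ≤ y generalizing x y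
  · have := this (x := -x) (y := -y) (by rwa [abs_neg]) (by rwa [abs_neg])
      (by rwa [abs_neg, abs_neg]) (by linarith [le_of_not_ge hy0])
    simp only [piece_neg, ← neg_add', ← sub_eq_add_neg] at this
    simpa [neg_sub_neg, abs_sub_comm] using this
  rw [abs_of_nonneg hy0] at hxy hy
  rcases eq_or_lt_of_le hy0 with rfl | hy0
  · have : x = 0 := abs_nonpos_iff.1 hxy
    subst this
    simp [Real.zero_rpow (show p ≠ 0 by linarith)]
  classical
  set s := (range (J + 1)).filter fun a => brk J a < y with hs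
  have hne : s.Nonempty := ⟨0, Finset.mem_filter.2 ⟨Finset.mem_range.2 (by omega), hy0⟩⟩
  set a := s.max' hne with ha
  have hamem := Finset.max'_mem s hne
  rw [← ha, hs, Finset.mem_filter, Finset.mem_range] at hamem
  have htop : y ≤ brk J (a + 1) := by
    by_cases hJ : a + 1 ≤ J
    · by_contra hc
      push Not at hc
      have : a + 1 ≤ a := by
        conv_rhs => rw [ha]
        exact Finset.le_max' s _ (by rw [hs, Finset.mem_filter, Finset.mem_range]; exact ⟨by omega, hc⟩)
      omega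
    · have : a = J := by omega
      rw [this]; simpa [brk] using hy
  set b := a - 3 with hb
  have hsum : ∑ j ∈ Finset.Ico b (a + 1), (piece J j y - piece J j x) =
      (y - x) - (trunc (brk J b) y - trunc (brk J b) x) := by
    rw [Finset.sum_Ico_eq_sub _ (by omega : b ≤ a + 1), Finset.sum_sub_distrib,
      Finset.sum_sub_distrib, sum_range_piece, sum_range_piece, sum_range_piece, sum_range_piece,
      trunc_of_abs_le (show |y| ≤ brk J (a+1) by rwa [abs_of_pos hy0]),
      trunc_of_abs_le (hxy.trans htop)]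
  have hyx : 0 ≤ y - x := by linarith [le_abs_self x]
  have hhalf : (y - x) / 2 ≤ ∑ j ∈ Finset.Ico b (a + 1), (piece J j y - piece J j x) := by
    rw [hsum]
    rcases Nat.eq_zero_or_pos b with h0 | h0
    · simp [h0, brk, trunc_zero]; linarith
    have h8 : 8 * brk J b = brk J a := by
      have e1 : a = b + 3 := by omega
      rw [e1, brk_two (a := b + 2) (by omega), brk_two (a := b + 1) (by omega), brk_two h0]; ring
    have hbn := brk_nonneg J b
    rcases le_total (y / 2) x with hx2 | hx2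
    · rw [trunc_of_ge hbn (by linarith [hamem.2]), trunc_of_ge hbn (by linarith [hamem.2])]
      linarith
    · have := abs_le.1 (abs_trunc_le hbn y)
      have := abs_le.1 (abs_trunc_le hbn x)
      linarith [hamem.2]
  have hex : ∃ j ∈ Finset.Ico b (a + 1), (y - x) / 8 ≤ piece J j y - piece J j x := by
    by_contra hc
    push Not at hc
    have hsum2 := Finset.sum_lt_sum_of_nonempty (Finset.nonempty_Ico.2 (by omega : b < a + 1)) hc
    rw [Finset.sum_const, Nat.card_Ico, nsmul_eq_mul] at hsum2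
    have hc4 : ((a + 1 - b : ℕ) : ℝ) ≤ 4 := by exact_mod_cast (by omega : a + 1 - b ≤ 4)
    have := mul_le_mul_of_nonneg_right hc4 (by linarith : (0 : ℝ) ≤ (y - x) / 8)
    linarith
  obtain ⟨j, hj, hjd⟩ := hex
  rw [Finset.mem_Ico] at hj
  refine le_trans ?_ (Finset.single_le_sum
    (fun i _ => Real.rpow_nonneg (abs_nonneg _) _) (Finset.mem_range.2 (by omega : j < J + 1)))
  rw [abs_sub_comm x y, abs_of_nonneg hyx, abs_sub_comm (piece J j x)]
  exact Real.rpow_le_rpow (by linarith) (hjd.trans (le_abs_self _)) (by linarith)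

lemma sum_pow_below (J : ℕ) (T : ℝ) : ∀ m : ℕ,
    (∑ i ∈ range m, if brk J (i + 1) < T then brk J (i + 1) else 0) ≤ brk J (m + 1) ∧
    (0 ≤ T → (∑ i ∈ range m, if brk J (i + 1) < T then brk J (i + 1) else 0) ≤ 2 * T) := by
  intro m
  induction m with
  | zero => exact ⟨by simpa using brk_nonneg J 1, fun h => by simp; linarith⟩
  | succ m ih =>
    have h2 := brk_two (J := J) (a := m + 1) (by omega)
    have hn := brk_nonneg J (m + 1)
    rw [Finset.sum_range_succ]
    constructor
    · rw [h2]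
      split <;> linarith [ih.1]
    · intro hT
      split
      · linarith [ih.1]
      · linarith [ih.2 hT]

lemma piece_support {J : ℕ} {p t : ℝ} (hp : 1 ≤ p) :
    (∑ a ∈ range (J + 1), if piece J a t = 0 then 0 else brk J (a + 1) ^ p) ≤
      (1 / 2 ^ J : ℝ) ^ p + 2 ^ (p + 1) * |t| ^ p := by
  rw [Finset.sum_range_succ', add_comm]
  refine add_le_add ?_ ?_
  · split
    · positivity
    · simp [brk]
  · have key : ∀ i ∈ range J, (if piece J (i + 1) t = 0 then 0 else brk J (i + 1 + 1) ^ p) ≤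
        2 ^ p * |t| ^ (p - 1) * (if brk J (i + 1) < |t| then brk J (i + 1) else 0) := by
      intro i _
      by_cases h : brk J (i + 1) < |t|
      · have hpos : 0 < brk J (i + 1) := by simp only [brk]; positivity
        rw [if_pos h]
        refine le_trans (b := brk J (i + 1 + 1) ^ p) ?_ ?_
        · split
          · exact Real.rpow_nonneg (brk_nonneg _ _) _
          · exact le_rfl
        rw [brk_two (by omega), Real.mul_rpow (by norm_num) hpos.le, mul_assoc]
        gcongr
        calc brk J (i + 1) ^ p = brk J (i + 1) ^ (p - 1) * brk J (i + 1) := by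
              rw [← Real.rpow_add_one hpos.ne', sub_add_cancel]
          _ ≤ |t| ^ (p - 1) * brk J (i + 1) := by
              have := Real.rpow_le_rpow hpos.le h.le (by linarith : (0 : ℝ) ≤ p - 1)
              exact mul_le_mul_of_nonneg_right this hpos.le
      · rw [if_neg h, if_pos (piece_eq_zero (le_of_not_gt h)), mul_zero]
    refine (Finset.sum_le_sum key).trans ?_
    rw [← Finset.mul_sum]
    refine (mul_le_mul_of_nonneg_left ((sum_pow_below J |t| J).2 (abs_nonneg t))
      (by positivity)).trans_eq ?_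
    rcases eq_or_lt_of_le (abs_nonneg t) with h | h
    · rw [← h]
      simp [Real.zero_rpow (show p ≠ 0 by linarith)]
    · rw [Real.rpow_add_one two_ne_zero]
      calc 2 ^ p * |t| ^ (p - 1) * (2 * |t|) = 2 ^ p * 2 * (|t| ^ (p - 1) * |t|) := by ring
        _ = _ := by rw [← Real.rpow_add_one h.ne', sub_add_cancel]

end Vale.Agent.P249.Sub
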